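import Mathlib

/-! Block E (helper10): the one-variable cutoff used in the mean value inequality. -/

set_option autoImplicit false
open scoped ContDiff

namespace Crest.Agent.N207.E

/-- basic cutoff: `1` on `(-∞,1]`, `0` on `[2,∞)`. -/
noncomputable def zeta (s : ℝ) : ℝ := Real.smoothTransition (2 - s)

lemma zeta_cd : ContDiff ℝ ∞ zeta := by
  unfold zeta
  exact Real.smoothTransition.contDiff.comp (contDiff_const.sub contDiff_id)

lemma zeta_one {s : ℝ} (h : s ≤ 1) : zeta s = 1 :=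
  Real.smoothTransition.one_of_one_le (by linarith)

lemma zeta_zero {s : ℝ} (h : 2 ≤ s) : zeta s = 0 :=
  Real.smoothTransition.zero_of_nonpos (by linarith)

lemma zeta_nonneg (s : ℝ) : 0 ≤ zeta s := Real.smoothTransition.nonneg _

lemma zeta_le_one (s : ℝ) : zeta s ≤ 1 := Real.smoothTransition.le_one _

/-- a continuous function vanishing off `[0,3]` is bounded -/
lemma bdd_of_vanish {f : ℝ → ℝ} (hf : Continuous f) (h1 : ∀ s, s < 0 → f s = 0)
    (h2 : ∀ s, 3 < s → f s = 0) : ∃ K, 0 ≤ K ∧ ∀ s, |f s| ≤ K := by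
  obtain ⟨K, hK⟩ := (isCompact_Icc (a := (0:ℝ)) (b := 3)).exists_bound_of_continuousOn
    hf.continuousOn
  refine ⟨max K 0, le_max_right _ _, fun s => ?_⟩
  by_cases a : s < 0
  · simp [h1 s a]
  by_cases b : 3 < s
  · simp [h2 s b]
  exact (hK s ⟨not_lt.1 a, not_lt.1 b⟩).trans (le_max_left _ _)

lemma deriv_vanish {f : ℝ → ℝ} {c d : ℝ} (h1 : ∀ s, s < 1 → f s = c) (h2 : ∀ s, 2 < s → f s = d) :
    (∀ s, s < 1 → deriv f s = 0) ∧ (∀ s, 2 < s → deriv f s = 0) := by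
  constructor
  · intro s hs
    have : f =ᶠ[nhds s] fun _ => c := by
      filter_upwards [Iio_mem_nhds hs] with y hy using h1 y hy
    rw [this.deriv_eq]; simp
  · intro s hs
    have : f =ᶠ[nhds s] fun _ => d := by
      filter_upwards [Ioi_mem_nhds hs] with y hy using h2 y hy
    rw [this.deriv_eq]; simp

lemma zeta_bounds : ∃ K, 0 ≤ K ∧ (∀ s, |deriv zeta s| ≤ K) ∧ ∀ s, |deriv (deriv zeta) s| ≤ K := by
  have v1 := deriv_vanish (f := zeta) (c := 1) (d := 0) (fun s hs => zeta_one hs.le)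
    (fun s hs => zeta_zero hs.le)
  have v2 := deriv_vanish (f := deriv zeta) (c := 0) (d := 0) v1.1 v1.2
  have c1 : ContDiff ℝ ∞ (deriv zeta) := zeta_cd.iterate_deriv 1
  have c2 : ContDiff ℝ ∞ (deriv (deriv zeta)) := c1.iterate_deriv 1
  obtain ⟨K1, h1, k1⟩ := bdd_of_vanish c1.continuous (fun s hs => v1.1 s (by linarith))
    (fun s hs => v1.2 s (by linarith))
  obtain ⟨K2, h2, k2⟩ := bdd_of_vanish c2.continuous (fun s hs => v2.1 s (by linarith))
    (fun s hs => v2.2 s (by linarith))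
  exact ⟨max K1 K2, le_max_of_le_left h1, fun s => (k1 s).trans (le_max_left _ _),
    fun s => (k2 s).trans (le_max_right _ _)⟩

/-- `ψ = ζ⁴` -/
noncomputable def psi (s : ℝ) : ℝ := zeta s ^ 4
/-- `χ = ζ²` -/
noncomputable def chi (s : ℝ) : ℝ := zeta s ^ 2

lemma psi_cd : ContDiff ℝ ∞ psi := zeta_cd.pow 4
lemma chi_cd : ContDiff ℝ ∞ chi := zeta_cd.pow 2
lemma psi_one {s : ℝ} (h : s ≤ 1) : psi s = 1 := by simp [psi, zeta_one h]
lemma psi_zero {s : ℝ} (h : 2 ≤ s) : psi s = 0 := by simp [psi, zeta_zero h]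
lemma chi_zero {s : ℝ} (h : 2 ≤ s) : chi s = 0 := by simp [chi, zeta_zero h]
lemma psi_nonneg (s : ℝ) : 0 ≤ psi s := pow_nonneg (zeta_nonneg s) 4
lemma chi_nonneg (s : ℝ) : 0 ≤ chi s := pow_nonneg (zeta_nonneg s) 2
lemma chi_le_one (s : ℝ) : chi s ≤ 1 := pow_le_one₀ (zeta_nonneg s) (zeta_le_one s)
lemma psi_eq (s : ℝ) : psi s = chi s ^ 2 := by unfold psi chi; ring
lemma psi_le_chi (s : ℝ) : psi s ≤ chi s := by
  rw [psi_eq]; nlinarith [chi_nonneg s, chi_le_one s]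
lemma psi_le_one (s : ℝ) : psi s ≤ 1 := (psi_le_chi s).trans (chi_le_one s)

lemma deriv_psi (s : ℝ) : deriv psi s = 4 * zeta s ^ 3 * deriv zeta s := by
  have h : HasDerivAt zeta (deriv zeta s) s :=
    (zeta_cd.differentiable (by simp) s).hasDerivAt
  have := (h.pow 4).deriv
  refine Eq.trans ?_ (this.trans ?_)
  · rfl
  · simp

lemma deriv2_psi (s : ℝ) : deriv (deriv psi) s =
    12 * zeta s ^ 2 * deriv zeta s ^ 2 + 4 * zeta s ^ 3 * deriv (deriv zeta) s := by
  have e : deriv psi = fun s => 4 * zeta s ^ 3 * deriv zeta s := funext deriv_psi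
  have h : HasDerivAt zeta (deriv zeta s) s :=
    (zeta_cd.differentiable (by simp) s).hasDerivAt
  have c1 : ContDiff ℝ ∞ (deriv zeta) := zeta_cd.iterate_deriv 1
  have h2 : HasDerivAt (deriv zeta) (deriv (deriv zeta) s) s :=
    (c1.differentiable (by simp) s).hasDerivAt
  have := (((h.pow 3).const_mul 4).mul h2).deriv
  rw [e]
  refine Eq.trans ?_ (this.trans ?_)
  · rfl
  · simp; ring

/-- the three facts used by every cutoff computation -/
theorem psi_bounds : ∃ K, 1 ≤ K ∧ (∀ s, deriv psi s ^ 2 ≤ K * psi s * chi s) ∧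
    ∀ s, |deriv (deriv psi) s| ≤ K * chi s := by
  obtain ⟨K, hK, k1, k2⟩ := zeta_bounds
  refine ⟨16 * K ^ 2 + 4 * K + 1, by nlinarith, fun s => ?_, fun s => ?_⟩
  · have a : deriv zeta s ^ 2 ≤ K ^ 2 := by
      rw [← sq_abs]; exact pow_le_pow_left₀ (abs_nonneg _) (k1 s) 2
    have z : 0 ≤ zeta s ^ 6 := pow_nonneg (zeta_nonneg s) 6
    rw [deriv_psi]; unfold psi chi
    nlinarith [mul_le_mul_of_nonneg_left a z, mul_nonneg z hK]
  · have a : deriv zeta s ^ 2 ≤ K ^ 2 := by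
      rw [← sq_abs]; exact pow_le_pow_left₀ (abs_nonneg _) (k1 s) 2
    have z2 : 0 ≤ zeta s ^ 2 := pow_nonneg (zeta_nonneg s) 2
    have z3 : 0 ≤ zeta s ^ 3 := pow_nonneg (zeta_nonneg s) 3
    have z32 : zeta s ^ 3 ≤ zeta s ^ 2 := by nlinarith [zeta_le_one s, zeta_nonneg s]
    have b := abs_le.1 (k2 s)
    rw [deriv2_psi]; unfold chi
    rw [abs_le]
    constructor
    · nlinarith [mul_le_mul_of_nonneg_left b.1 z3, mul_le_mul_of_nonneg_left z32 hK,
        mul_nonneg z2 (sq_nonneg (deriv zeta s)), mul_nonneg z2 (sq_nonneg K)]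
    · nlinarith [mul_le_mul_of_nonneg_left b.2 z3, mul_le_mul_of_nonneg_left z32 hK,
        mul_le_mul_of_nonneg_left a z2, mul_nonneg z2 (sq_nonneg K)]

end Crest.Agent.N207.E
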