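import Crest.Agent.N207.E.MV
import Crest.Agent.N207.C.Max
import Crest.Agent.N207.C.Stmt
import Crest.Agent.N207.C.Lip

-- ▼ part N207/E/BS
section

/-! Block E (helper10): the Bernstein step. -/

set_option autoImplicit false
set_option linter.dupNamespace false
set_option linter.unusedSectionVars false
open Set MeasureTheory
open scoped ContDiff

noncomputable section

namespace Crest.Agent.N207.E

universe v

lemma psi_flat {s : ℝ} (hs : s < 1) : deriv psi s = 0 ∧ deriv (deriv psi) s = 0 := by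
  have v1 := deriv_vanish (f := psi) (c := 1) (d := 0) (fun s hs => psi_one hs.le)
    (fun s hs => psi_zero hs.le)
  have v2 := deriv_vanish (f := deriv psi) (c := 0) (d := 0) v1.1 v1.2
  exact ⟨v1.1 s hs, v2.1 s hs⟩

variable {M : Type v} [TopologicalSpace M] [MeasurableSpace M] {H : HC M}

lemma dt_cut {a b l ρ : ℝ} {u : ℝ → M → ℝ} (hu : H.Heat a b u) :
    HasDt a b (fun t y => psi ((u t y - l) / ρ))
      fun t y => deriv psi ((u t y - l) / ρ) / ρ * H.lap t (u t) y := by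
  intro t ht y
  have h2 : HasDerivAt (fun s => psi ((s - l) / ρ)) (deriv psi ((u t y - l) / ρ) / ρ) (u t y) := by
    have := ((cd_aff psi_cd l ρ).differentiable (by simp) (u t y)).hasDerivAt
    rwa [deriv_aff psi_cd] at this
  exact HasDerivAt.comp_hasDerivWithinAt (h₂ := fun s => psi ((s - l) / ρ)) (h := fun s => u s y)
    t h2 (hu.2 t ht y)

lemma lap_cut_flat (hA : H.Alg) {t : ℝ} (ht : t ∈ Ioo 0 H.T) {u P : M → ℝ} (su : H.S0 u)
    (sP : H.S0 P) {l ρ : ℝ} {y : M} (hy : (u y - l) / ρ < 1) :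
    H.lap t (fun z => psi ((u z - l) / ρ) * P z) y = H.lap t P y := by
  have cp := cd_aff psi_cd l ρ
  have sψ : H.S0 fun z => psi ((u z - l) / ρ) :=
    s0_cmp hA (φ := fun s => psi ((s - l) / ρ)) cp su
  have e1 := hA.lap_mul t ht sψ sP y
  have e2 := hA.lap_comp t ht (φ := fun s => psi ((s - l) / ρ)) isOpen_univ cp.contDiffOn
    (fun _ => mem_univ _) su y
  have e3 := hA.gam_comp t ht (φ := fun s => psi ((s - l) / ρ)) isOpen_univ cp.contDiffOn
    (fun _ => mem_univ _) su sP y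
  rw [deriv2_aff psi_cd, deriv_aff psi_cd] at e2
  rw [deriv_aff psi_cd] at e3
  rw [e1, e2, e3]
  beta_reduce
  rw [(psi_flat hy).1, (psi_flat hy).2, psi_one hy.le]
  ring

lemma bs_arith {K Λ S0 S1 ρ τ ψ χ p1 p1' lp1 G p' lp X Y : ℝ} (hK : 0 ≤ K) (hΛ : 0 ≤ Λ)
    (hS1 : 0 ≤ S1) (hρ : 0 < ρ) (τ0 : 0 ≤ τ) (τ1 : τ ≤ ρ ^ 2) (ψ0 : 0 ≤ ψ) (ψ1 : ψ ≤ 1)
    (χ1 : χ ≤ 1) (hp : 0 ≤ p1) (q2 : p' - lp ≤ S0 - 2 * p1) (q3 : p1' - lp1 ≤ Λ * p1 + S1 - 2 * G)
    (cs : X + ψ * p1' - Y ≤ ψ * (p1' - lp1 + 2 * G) + 3 * K / ρ ^ 2 * χ * p1) :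
    ψ * p1 + τ * (X + ψ * p1') + (Λ * ρ ^ 2 + (3 * K + 1)) * p' -
      (ρ ^ 2 * S1 + (Λ * ρ ^ 2 + (3 * K + 1)) * S0) ≤
      τ * Y + (Λ * ρ ^ 2 + (3 * K + 1)) * lp := by
  set A := Λ * ρ ^ 2 + (3 * K + 1) with hA
  have A0 : 0 ≤ A := by positivity
  have m1 : ψ * (p1' - lp1 + 2 * G) ≤ Λ * p1 + S1 := by
    have : 0 ≤ Λ * p1 + S1 := by positivity
    have a := mul_le_mul_of_nonneg_left (show p1' - lp1 + 2 * G ≤ Λ * p1 + S1 by linarith) ψ0
    have b := mul_le_mul_of_nonneg_right ψ1 this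
    linarith
  have m2 : 3 * K / ρ ^ 2 * χ * p1 ≤ 3 * K / ρ ^ 2 * p1 := by
    have : 0 ≤ 3 * K / ρ ^ 2 * p1 := by positivity
    have b := mul_le_mul_of_nonneg_right χ1 this
    linarith
  have m3 := mul_le_mul_of_nonneg_left (cs.trans (add_le_add m1 m2)) τ0
  have m4 := mul_le_mul_of_nonneg_right τ1
    (show 0 ≤ Λ * p1 + S1 + 3 * K / ρ ^ 2 * p1 by positivity)
  have m5 : ρ ^ 2 * (Λ * p1 + S1 + 3 * K / ρ ^ 2 * p1) =
      (Λ * ρ ^ 2 + 3 * K) * p1 + ρ ^ 2 * S1 := by field_simp; ring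
  have m6 := mul_le_mul_of_nonneg_left q2 A0
  have m7 := mul_le_mul_of_nonneg_right ψ1 hp
  have m8 : 0 ≤ A * p1 := by positivity
  have m9 : A * p1 = (Λ * ρ ^ 2 + 3 * K) * p1 + p1 := by rw [hA]; ring
  linarith

/-- **Bernstein step** on `[b-ρ², b] × {u ≤ u(b,x) + 3ρ}` -/
theorem bs0 : ∃ K : ℝ, 1 ≤ K ∧ ∀ {M : Type v} [TopologicalSpace M] [CompactSpace M]
    [MeasurableSpace M] {H : HC M}, H.Alg →
    ∀ {a b ρ Λ D S0 S1 : ℝ} {u P P' P1 P1' G : ℝ → M → ℝ} (x : M),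
    H.St a b → 0 < ρ → b - a = ρ ^ 2 → 0 ≤ Λ → 0 ≤ S0 → 0 ≤ S1 → H.Heat a b u →
    (∀ t ∈ Icc a b, ∀ y, H.gam t (u t) (u t) y ≤ 1) → H.Sm a b P → HasDt a b P P' →
    H.Sm a b P1 → HasDt a b P1 P1' → (∀ t ∈ Icc a b, ∀ y, 0 ≤ P t y) →
    (∀ t ∈ Icc a b, ∀ y, 0 ≤ P1 t y) → (∀ t ∈ Icc a b, ∀ y, 0 ≤ G t y) →
    (∀ t ∈ Icc a b, ∀ y, H.gam t (P1 t) (P1 t) y ≤ 4 * P1 t y * G t y) →
    (∀ t ∈ Icc a b, ∀ y, u t y ≤ u b x + 3 * ρ → P t y ≤ D ∧
      P' t y - H.lap t (P t) y ≤ S0 - 2 * P1 t y ∧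
      P1' t y - H.lap t (P1 t) y ≤ Λ * P1 t y + S1 - 2 * G t y) →
    ρ ^ 2 * P1 b x ≤ (Λ * ρ ^ 2 + K) * (D + ρ ^ 2 * S0) + ρ ^ 4 * S1 := by
  obtain ⟨K, hK, k1, k2⟩ := psi_bounds
  refine ⟨3 * K + 1, by linarith, ?_⟩
  intro M _ _ _ H hA a b ρ Λ D S0 S1 u P P' P1 P1' G x st hρ hab hΛ hS0 hS1 hu hg sP dP sP1 dP1
    P0 P10 G0 hk hq
  have ρ2 : 0 < ρ ^ 2 := pow_pos hρ 2
  set l := u b x with hl
  set A := Λ * ρ ^ 2 + (3 * K + 1) with hAd
  have A0 : 0 ≤ A := by positivity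
  set c := ρ ^ 2 * S1 + A * S0 with hc
  have c0 : 0 ≤ c := by positivity
  have bm : b ∈ Icc a b := right_mem_Icc.2 st.2.1.le
  have D0 : 0 ≤ D := (P0 b bm x).trans (hq b bm x (by linarith)).1
  have sψ : ∀ l', H.Sm a b fun t y => psi ((u t y - l') / ρ) := fun l' =>
    sm_cmp hA (φ := fun s => psi ((s - l') / ρ)) (cd_aff psi_cd l' ρ) hu.1
  have s1 := hA.sm_mul (sψ l) sP1
  have s2 := hA.sm_mul (sψ (l + ρ)) sP
  have sτ : H.Sm a b fun t _ => t - a := hA.sm_timeU (by fun_prop)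
  have sκ : H.Sm a b fun t _ => A * D + c * (t - a) := hA.sm_timeU (by fun_prop)
  have dτ : HasDt a b (fun t (_ : M) => t - a) fun _ _ => 1 :=
    HasDt.time (c' := fun _ => 1) fun t _ => (hasDerivAt_id t).sub_const a
  have dκ : HasDt a b (fun t (_ : M) => A * D + c * (t - a)) fun _ _ => c :=
    HasDt.time (c' := fun _ => c) fun t _ => by
      simpa using (((hasDerivAt_id t).sub_const a).const_mul c).const_add (A * D)
  have low : ∀ t ∈ Icc a b, ∀ y, psi ((u t y - (l + ρ)) / ρ) * P t y ≤ D := by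
    intro t ht y
    by_cases h : u t y ≤ l + 3 * ρ
    · nlinarith [psi_le_one ((u t y - (l + ρ)) / ρ), psi_nonneg ((u t y - (l + ρ)) / ρ),
        P0 t ht y, (hq t ht y h).1]
    · rw [psi_zero (by rw [le_div_iff₀ hρ]; linarith [not_le.1 h]), zero_mul]; exact D0
  have := hA.maxp st (hA.sm_sub (hA.sm_add (hA.sm_mul sτ s1) (hA.sm_cmul A s2)) sκ)
    (((dτ.mul ((dt_cut hu).mul dP1)).add (((dt_cut hu).mul dP).cmul A)).sub dκ) 0
    (fun y => by
      have := mul_le_mul_of_nonneg_left (low a (left_mem_Icc.2 st.2.1.le) y) A0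
      simp only [sub_self, zero_mul, mul_zero, zero_add, add_zero]; linarith)
    (fun t ht y hpos hlap _ => by
      have hm : t ∈ Icc a b := Ioc_subset_Icc_self ht
      have tm := st.mem hm
      have su := hA.sm_s0 hu.1 t hm
      have lo := mul_le_mul_of_nonneg_left (low t hm y) A0
      have τ0 : 0 ≤ t - a := by linarith [hm.1]
      have τ1 : t - a ≤ ρ ^ 2 := by linarith [hm.2]
      have hin : u t y < l + 2 * ρ := by
        by_contra h
        rw [psi_zero (s := (u t y - l) / ρ) (by rw [le_div_iff₀ hρ]; linarith [not_lt.1 h])] at hpos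
        nlinarith [mul_nonneg c0 τ0]
      have h1 : (u t y - (l + ρ)) / ρ < 1 := by rw [div_lt_one hρ]; linarith
      obtain ⟨-, q2, q3⟩ := hq t hm y (by linarith)
      have t1 := hA.sm_s0 s1 t hm
      have t2 := hA.sm_s0 s2 t hm
      rw [hA.lap_sub tm (hA.s0_add (hA.s0_cmul _ t1) (hA.s0_cmul _ t2)) (hA.s0_const _),
        hA.lap_const tm, hA.lap_add t tm (hA.s0_cmul _ t1) (hA.s0_cmul _ t2), hA.lap_cmul tm _ t1,
        hA.lap_cmul tm _ t2, lap_cut_flat hA tm su (hA.sm_s0 sP t hm) h1] at hlap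
      have cs := cut_sub hA (by linarith) k1 k2 tm su (hA.sm_s0 sP1 t hm) (l := l) hρ y
        (hg t hm y) (P10 t hm y) (G0 t hm y) (hk t hm y) (P1' t y)
      rw [(psi_flat h1).1, psi_one h1.le]
      have := bs_arith (by linarith) hΛ hS1 hρ τ0 τ1 (psi_nonneg _) (psi_le_one _) (chi_le_one _)
        (P10 t hm y) q2 q3 cs
      rw [← hAd, ← hc] at this
      simp only [zero_div, zero_mul, one_mul, zero_add]
      linarith) b bm x
  rw [psi_one (s := (u b x - l) / ρ) (by simp [hl]), hab] at this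
  have p2 : 0 ≤ A * (psi ((u b x - (l + ρ)) / ρ) * P b x) :=
    mul_nonneg A0 (mul_nonneg (psi_nonneg _) (P0 b bm x))
  rw [hc] at this
  nlinarith

end Crest.Agent.N207.E

end
end

-- ▼ part N207/E/Tower
section

/-! Block E (helper10): the Bernstein-Shi tower in weighted form. -/

set_option autoImplicit false
set_option linter.dupNamespace false
set_option linter.unusedSectionVars false
open Set MeasureTheory
open scoped ContDiff

noncomputable section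

namespace Crest.Agent.N207.E

universe v

variable {M : Type v} [TopologicalSpace M] [CompactSpace M] [MeasurableSpace M] {H : HC M}

/-- a window: a strip with a 1-Lipschitz heat function -/
structure Win (H : HC M) (a b : ℝ) (u : ℝ → M → ℝ) : Prop where
  st : H.St a b
  heat : H.Heat a b u
  lip : ∀ t ∈ Icc a b, ∀ y, H.gam t (u t) (u t) y ≤ 1

/-- `(t,y)` has parabolic distance at least `η` from the boundary of `[a,b] × {u ≤ L}` -/
structure Adm (a b L : ℝ) (u : ℝ → M → ℝ) (t : ℝ) (y : M) (η : ℝ) : Prop where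
  mem : t ∈ Icc a b
  pos : 0 < η
  lev : u t y + η ≤ L
  tim : η ^ 2 ≤ t - a

lemma Adm.near {a b L : ℝ} {u : ℝ → M → ℝ} {s : ℝ} {z : M} {η : ℝ} (h : Adm a b L u s z η)
    {t : ℝ} (ht : t ∈ Icc (s - (η / 6) ^ 2) s) {y : M} (hy : u t y ≤ u s z + 3 * (η / 6)) :
    Adm a b L u t y (η / 2) := by
  have := h.pos; have := h.lev; have := h.tim; have := ht.1
  have p2 : 0 < η ^ 2 := by positivity
  exact ⟨⟨by nlinarith, ht.2.trans h.mem.2⟩, by linarith, by linarith, by nlinarith⟩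

/-- the Bernstein step in weighted form -/
theorem bs1 (hA : H.Alg) (p : ℕ) {Λ0 : ℝ} (hΛ0 : 0 ≤ Λ0) : ∃ C, 0 ≤ C ∧
    ∀ {a b L D : ℝ} {u P P' P1 P1' G : ℝ → M → ℝ}, Win H a b u → 0 ≤ D → H.Sm a b P →
    HasDt a b P P' → H.Sm a b P1 → HasDt a b P1 P1' → (∀ t ∈ Icc a b, ∀ y, 0 ≤ P t y) →
    (∀ t ∈ Icc a b, ∀ y, 0 ≤ P1 t y) → (∀ t ∈ Icc a b, ∀ y, 0 ≤ G t y) →
    (∀ t ∈ Icc a b, ∀ y, H.gam t (P1 t) (P1 t) y ≤ 4 * P1 t y * G t y) →
    (∀ t y η, Adm a b L u t y η → η ^ p * P t y ≤ D ∧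
      η ^ (p + 2) * (P' t y - H.lap t (P t) y + 2 * P1 t y) ≤ D ∧
      η ^ (p + 4) * (P1' t y - H.lap t (P1 t) y + 2 * G t y) ≤ Λ0 * (η ^ (p + 2) * P1 t y) + D) →
    ∀ t y η, Adm a b L u t y η → η ^ (p + 2) * P1 t y ≤ C * D := by
  obtain ⟨K, hK, h⟩ := bs0.{v}
  refine ⟨36 * 2 ^ p * (2 * (Λ0 + K) + 1), by positivity, ?_⟩
  intro a b L D u P P' P1 P1' G W D0 sP dP sP1 dP1 P0 P10 G0 hk hq s z η ad
  have η0 := ad.pos
  have p2 : 0 < η ^ 2 := by positivity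
  have hs : a < s - (η / 6) ^ 2 := by have := ad.tim; nlinarith
  have sub : Icc (s - (η / 6) ^ 2) s ⊆ Icc a b := Icc_subset_Icc hs.le ad.mem.2
  set e := η / 2 with he
  have e0 : 0 < e := by positivity
  have ep : 0 < e ^ p := by positivity
  have := h hA (a := s - (η / 6) ^ 2) (b := s) (ρ := η / 6) (Λ := Λ0 / e ^ 2) (D := D / e ^ p)
    (S0 := D / e ^ (p + 2)) (S1 := D / e ^ (p + 4)) (G := G) z
    (W.st.mono hs.le (by nlinarith) ad.mem.2) (by positivity) (by ring) (by positivity)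
    (by positivity) (by positivity) (hA.heat_mono W.heat hs.le ad.mem.2)
    (fun t ht => W.lip t (sub ht)) (hA.sm_mono sP hs.le ad.mem.2) (dP.mono hs.le ad.mem.2)
    (hA.sm_mono sP1 hs.le ad.mem.2) (dP1.mono hs.le ad.mem.2) (fun t ht => P0 t (sub ht))
    (fun t ht => P10 t (sub ht)) (fun t ht => G0 t (sub ht)) (fun t ht => hk t (sub ht))
    fun t ht y hy => by
      obtain ⟨q1, q2, q3⟩ := hq t y e (ad.near ht hy)
      refine ⟨by rw [le_div_iff₀ ep]; linarith, ?_, ?_⟩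
      · have : P' t y - H.lap t (P t) y + 2 * P1 t y ≤ D / e ^ (p + 2) := by
          rw [le_div_iff₀ (by positivity)]; linarith
        linarith
      · have : P1' t y - H.lap t (P1 t) y + 2 * G t y ≤
            (Λ0 * (e ^ (p + 2) * P1 t y) + D) / e ^ (p + 4) := by
          rw [le_div_iff₀ (by positivity)]; linarith
        have e2 : (Λ0 * (e ^ (p + 2) * P1 t y) + D) / e ^ (p + 4) =
            Λ0 / e ^ 2 * P1 t y + D / e ^ (p + 4) := by field_simp; ring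
        linarith
  have hη : η = 2 * e := by rw [he]; ring
  have r1 : (Λ0 / e ^ 2 * (η / 6) ^ 2 + K) * (D / e ^ p + (η / 6) ^ 2 * (D / e ^ (p + 2))) +
      (η / 6) ^ 4 * (D / e ^ (p + 4)) = ((Λ0 / 9 + K) * (10 / 9) + 1 / 81) * (D / e ^ p) := by
    rw [hη]; field_simp; ring
  rw [r1] at this
  have l1 : (Λ0 / 9 + K) * (10 / 9) + 1 / 81 ≤ 2 * (Λ0 + K) + 1 := by linarith
  have l2 := this.trans (mul_le_mul_of_nonneg_right l1 (by positivity))
  calc η ^ (p + 2) * P1 s z = 36 * 2 ^ p * e ^ p * ((η / 6) ^ 2 * P1 s z) := by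
        rw [hη]; ring_nf
    _ ≤ 36 * 2 ^ p * e ^ p * ((2 * (Λ0 + K) + 1) * (D / e ^ p)) :=
        mul_le_mul_of_nonneg_left l2 (by positivity)
    _ = _ := by field_simp

lemma sqrt3 {η n q w B E : ℝ} {p i j : ℕ} (hη : 0 < η) (n0 : 0 ≤ n) (q0 : 0 ≤ q) (w0 : 0 ≤ w)
    (hn : η ^ (4 + 2 * i) * n ≤ B) (hq : η ^ (p + 2 * j) * q ≤ E) :
    η ^ (p + 2 * (i + j) + 2) * (√n * √q * √w) ≤ η ^ (p + 2 * (i + j)) * w + B * E := by
  have a0 : 0 ≤ η ^ (4 + 2 * i) * n := by positivity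
  have b0 : 0 ≤ η ^ (p + 2 * j) * q := by positivity
  have BE := mul_le_mul hn hq b0 (a0.trans hn)
  have X0 : 0 ≤ η ^ (p + 2 * (i + j)) * w := by positivity
  have BE0 : 0 ≤ B * E := (mul_nonneg a0 b0).trans BE
  apply le_add_of_sq X0 BE0
  have : (η ^ (p + 2 * (i + j) + 2) * (√n * √q * √w)) ^ 2 =
      η ^ (p + 2 * (i + j)) * w * (η ^ (4 + 2 * i) * n * (η ^ (p + 2 * j) * q)) := by
    rw [mul_pow, mul_pow, mul_pow, Real.sq_sqrt n0, Real.sq_sqrt q0, Real.sq_sqrt w0]; ring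
  rw [this]
  nlinarith [mul_le_mul_of_nonneg_left BE X0, mul_nonneg X0 BE0]

lemma sqrt2 {η n w B : ℝ} {s : ℕ} (hη : 0 < η) (n0 : 0 ≤ n) (w0 : 0 ≤ w) (hn : η ^ 4 * n ≤ B) :
    η ^ (s + 2) * (√n * √w * √w) ≤ (B + 1) * (η ^ s * w) := by
  have B0 : 0 ≤ B := (by positivity : 0 ≤ η ^ 4 * n).trans hn
  have : η ^ 2 * √n ≤ B + 1 := by
    apply le_of_sq_le_sq _ (by positivity)
    rw [mul_pow, Real.sq_sqrt n0]; nlinarith
  calc _ = η ^ 2 * √n * (η ^ s * w) := by rw [mul_assoc √n, Real.mul_self_sqrt w0]; ring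
    _ ≤ _ := mul_le_mul_of_nonneg_right this (by positivity)

/-- a tower of tensor norms evolving like `N` or `Q` -/
structure Fam (H : HC M) (P : ℕ → ℝ → M → ℝ) : Prop where
  sm : ∀ {a b : ℝ} (k : ℕ), H.St a b → H.Sm a b (P k)
  nn : ∀ k, ∀ t ∈ Ioo 0 H.T, ∀ x, 0 ≤ P k t x
  kato : ∀ k, ∀ t ∈ Ioo 0 H.T, ∀ x, H.gam t (P k t) (P k t) x ≤ 4 * P k t x * P (k + 1) t x
  dt : ∀ k, ∃ C, 0 ≤ C ∧ ∀ {a b : ℝ} {P' : ℝ → M → ℝ}, H.St a b → HasDt a b (P k) P' →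
    ∀ t ∈ Icc a b, ∀ x, |P' t x - H.lap t (P k t) x + 2 * P (k + 1) t x| ≤
      C * ∑ i ∈ Finset.range (k + 1), √(H.N i t x) * √(P (k - i) t x) * √(P k t x)

lemma famN (hA : H.Alg) (hE : H.Evo) : Fam H H.N := ⟨hA.sm_N, hE.N_nonneg, hE.kato_N, hE.dt_N⟩
lemma famQ (hA : H.Alg) (hE : H.Evo) : Fam H H.Q := ⟨hA.sm_Q, hE.Q_nonneg, hE.kato_Q, hE.dt_Q⟩

theorem step (hA : H.Alg) (hE : H.Evo) {P : ℕ → ℝ → M → ℝ} (F : Fam H P) (p k : ℕ) {B : ℝ}
    (hB : 0 ≤ B) : ∃ c, 0 ≤ c ∧ ∀ {a b L E : ℝ} {u : ℝ → M → ℝ}, Win H a b u → 0 ≤ E →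
    (∀ i ≤ k, ∀ t y η, Adm a b L u t y η → η ^ (4 + 2 * i) * H.N i t y ≤ B) →
    (∀ i ≤ k, ∀ t y η, Adm a b L u t y η → η ^ (p + 2 * i) * P i t y ≤ E) →
    (∀ t y η, Adm a b L u t y η → η ^ (p + 2 * (k + 1) + 2) *
      (√(H.N (k + 1) t y) * √(P 0 t y) * √(P (k + 1) t y)) ≤
        (B + 1) * (η ^ (p + 2 * (k + 1)) * P (k + 1) t y) + B * E) →
    ∀ t y η, Adm a b L u t y η → η ^ (p + 2 * (k + 1)) * P (k + 1) t y ≤ c * E := by
  obtain ⟨C0, hC0, d0⟩ := F.dt k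
  obtain ⟨C1, hC1, d1⟩ := F.dt (k + 1)
  obtain ⟨c, hc, h⟩ := bs1 hA (p + 2 * k) (Λ0 := C1 * ((k + 2) * (B + 1))) (by positivity)
  set A := 1 + C0 * ((k + 1) * (1 + B)) + C1 * ((k + 2) * B) with hAd
  have A1 : 1 ≤ A := by
    have : 0 ≤ C0 * ((k + 1) * (1 + B)) + C1 * ((k + 2) * B) := by positivity
    linarith
  refine ⟨c * A, by positivity, ?_⟩
  intro a b L E u W E0 hN hP hl s z η ad
  obtain ⟨P', -, dP⟩ := hA.sm_dt W.st.2.1 (F.sm k W.st)
  obtain ⟨P1', -, dP1⟩ := hA.sm_dt W.st.2.1 (F.sm (k + 1) W.st)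
  have := h (L := L) (D := A * E) (G := P (k + 2)) W (by positivity) (F.sm k W.st) dP
    (F.sm (k + 1) W.st) dP1 (fun t ht => F.nn k t (W.st.mem ht))
    (fun t ht => F.nn _ t (W.st.mem ht)) (fun t ht => F.nn _ t (W.st.mem ht))
    (fun t ht => F.kato _ t (W.st.mem ht)) (fun t y η ad => by
      have tm := W.st.mem ad.mem
      have η0 := ad.pos
      have e1 : 0 ≤ C0 * ((k + 1) * (1 + B)) * E := by positivity
      have e2 : 0 ≤ C1 * ((k + 2) * B) * E := by positivity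
      have AE : A * E = E + C0 * ((k + 1) * (1 + B)) * E + C1 * ((k + 2) * B) * E := by
        rw [hAd]; ring
      refine ⟨by linarith [hP k le_rfl t y η ad], ?_, ?_⟩
      · have a1 := mul_le_mul_of_nonneg_left ((le_abs_self _).trans (d0 W.st dP t ad.mem y))
          (pow_pos η0 (p + 2 * k + 2)).le
        have a2 : ∑ i ∈ Finset.range (k + 1), η ^ (p + 2 * k + 2) *
            (√(H.N i t y) * √(P (k - i) t y) * √(P k t y)) ≤
            ∑ _i ∈ Finset.range (k + 1), (1 + B) * E := Finset.sum_le_sum fun i hi => by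
          have ik : i ≤ k := Nat.lt_succ_iff.1 (Finset.mem_range.1 hi)
          have := sqrt3 η0 (hE.N_nonneg i t tm y) (F.nn _ t tm y) (F.nn k t tm y)
            (hN i ik t y η ad) (hP (k - i) (Nat.sub_le _ _) t y η ad)
          rw [Nat.add_sub_cancel' ik] at this
          linarith [hP k le_rfl t y η ad]
        rw [← Finset.mul_sum, Finset.sum_const, Finset.card_range, nsmul_eq_mul] at a2
        have a3 := mul_le_mul_of_nonneg_left a2 hC0
        push_cast at a3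
        linarith
      · have a1 := mul_le_mul_of_nonneg_left ((le_abs_self _).trans (d1 W.st dP1 t ad.mem y))
          (pow_pos η0 (p + 2 * k + 4)).le
        have X0 : 0 ≤ η ^ (p + 2 * k + 2) * P (k + 1) t y :=
          mul_nonneg (pow_pos η0 _).le (F.nn _ t tm y)
        have BE : 0 ≤ B * E := mul_nonneg hB E0
        have a2 : ∑ i ∈ Finset.range (k + 1 + 1), η ^ (p + 2 * k + 4) *
            (√(H.N i t y) * √(P (k + 1 - i) t y) * √(P (k + 1) t y)) ≤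
            ∑ _i ∈ Finset.range (k + 1 + 1),
              ((B + 1) * (η ^ (p + 2 * k + 2) * P (k + 1) t y) + B * E) :=
          Finset.sum_le_sum fun i hi => by
            have ik : i ≤ k + 1 := Nat.lt_succ_iff.1 (Finset.mem_range.1 hi)
            rcases Nat.eq_zero_or_pos i with rfl | i0
            · have := sqrt2 (s := p + 2 * k + 2) η0 (hE.N_nonneg 0 t tm y) (F.nn (k + 1) t tm y)
                (hN 0 (Nat.zero_le _) t y η ad)
              rw [Nat.sub_zero]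
              linarith
            rcases ik.eq_or_lt with rfl | ik'
            · rw [Nat.sub_self]; exact hl t y η ad
            · have := sqrt3 η0 (hE.N_nonneg i t tm y) (F.nn _ t tm y) (F.nn (k + 1) t tm y)
                (hN i (Nat.lt_succ_iff.1 ik') t y η ad) (hP (k + 1 - i) (by omega) t y η ad)
              rw [Nat.add_sub_cancel' ik] at this
              have e3 : p + 2 * (k + 1) + 2 = p + 2 * k + 4 := by ring
              have e4 : p + 2 * (k + 1) = p + 2 * k + 2 := by ring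
              rw [e3, e4] at this
              nlinarith
        rw [← Finset.mul_sum, Finset.sum_const, Finset.card_range, nsmul_eq_mul] at a2
        have a3 := mul_le_mul_of_nonneg_left a2 hC1
        push_cast at a3
        linarith) s z η ad
  have e4 : p + 2 * (k + 1) = p + 2 * k + 2 := by ring
  rw [e4]; linarith

/-- first pass: derivative bounds for the curvature -/
theorem towerN (hA : H.Alg) (hE : H.Evo) {B : ℝ} (hB : 0 ≤ B) (k : ℕ) : ∃ C, 0 ≤ C ∧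
    ∀ {a b L : ℝ} {u : ℝ → M → ℝ}, Win H a b u →
    (∀ t y η, Adm a b L u t y η → η ^ 4 * H.N 0 t y ≤ B) →
    ∀ i ≤ k, ∀ t y η, Adm a b L u t y η → η ^ (4 + 2 * i) * H.N i t y ≤ C := by
  induction k with
  | zero =>
    refine ⟨B, hB, fun W h i hi t y η ad => ?_⟩
    obtain rfl := Nat.le_zero.1 hi
    exact h t y η ad
  | succ k ih =>
    obtain ⟨C, hC, ih⟩ := ih
    obtain ⟨c, hc, h⟩ := step hA hE (famN hA hE) 4 k hC
    refine ⟨C + c * C, by positivity, fun W h0 i hi t y η ad => ?_⟩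
    rcases hi.eq_or_lt with rfl | hi'
    · have := h W hC (ih W h0) (ih W h0) (fun t y η ad => by
        have tm := W.st.mem ad.mem
        have := sqrt2 (s := 4 + 2 * (k + 1)) ad.pos (hE.N_nonneg 0 t tm y)
          (hE.N_nonneg (k + 1) t tm y) (ih W h0 0 (Nat.zero_le _) t y η ad)
        rw [mul_comm √(H.N (k + 1) t y) √(H.N 0 t y)]
        nlinarith) t y η ad
      linarith
    · have := ih W h0 i (Nat.lt_succ_iff.1 hi') t y η ad
      nlinarith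

/-- the tower, linear in the data -/
theorem towerL (hA : H.Alg) (hE : H.Evo) {P : ℕ → ℝ → M → ℝ} (F : Fam H P) (p : ℕ) {B : ℝ}
    (hB : 0 ≤ B) (k : ℕ) : ∃ C, 0 ≤ C ∧ ∀ {a b L D : ℝ} {u : ℝ → M → ℝ}, Win H a b u → 0 ≤ D →
    (∀ i ≤ k, ∀ t y η, Adm a b L u t y η → η ^ (4 + 2 * i) * H.N i t y ≤ B) →
    (∀ t y η, Adm a b L u t y η → η ^ p * P 0 t y ≤ D) →
    ∀ i ≤ k, ∀ t y η, Adm a b L u t y η → η ^ (p + 2 * i) * P i t y ≤ C * D := by
  induction k with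
  | zero =>
    refine ⟨1, zero_le_one, fun W _ _ h i hi t y η ad => ?_⟩
    obtain rfl := Nat.le_zero.1 hi
    simpa using h t y η ad
  | succ k ih =>
    obtain ⟨C, hC, ih⟩ := ih
    obtain ⟨c, hc, h⟩ := step hA hE F p k hB
    refine ⟨C + c * C, by positivity, fun {a b L D u} W D0 hN h0 i hi t y η ad => ?_⟩
    have hN' := fun i (hi : i ≤ k) => hN i (hi.trans k.le_succ)
    have CD : 0 ≤ C * D := mul_nonneg hC D0
    rcases hi.eq_or_lt with rfl | hi'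
    · have := h W CD hN' (ih W D0 hN' h0) (fun t y η ad => by
        have tm := W.st.mem ad.mem
        have := sqrt3 ad.pos (hE.N_nonneg (k + 1) t tm y) (F.nn 0 t tm y) (F.nn (k + 1) t tm y)
          (hN (k + 1) le_rfl t y η ad) (ih W D0 hN' h0 0 (Nat.zero_le _) t y η ad)
        rw [Nat.add_zero] at this
        have X0 : 0 ≤ η ^ (p + 2 * (k + 1)) * P (k + 1) t y :=
          mul_nonneg (pow_pos ad.pos _).le (F.nn _ t tm y)
        nlinarith) t y η ad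
      nlinarith
    · have := ih W D0 hN' h0 i (Nat.lt_succ_iff.1 hi') t y η ad
      nlinarith [mul_nonneg hc CD]

/-- `|Ric| ≤ C/η` from the bounded scalar curvature -/
theorem ric0 (hA : H.Alg) (hE : H.Evo) {B : ℝ} (hB : 0 ≤ B) : ∃ C, 0 ≤ C ∧
    ∀ {a b L : ℝ} {u : ℝ → M → ℝ}, Win H a b u →
    (∀ t y η, Adm a b L u t y η → η ^ 4 * H.N 0 t y ≤ B) →
    ∀ t y η, Adm a b L u t y η → η ^ 2 * H.Q 0 t y ≤ C := by
  obtain ⟨K, hK⟩ := hE.R_bd
  obtain ⟨C0, hC0, d0⟩ := hE.dt_Q 0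
  obtain ⟨c, hc, h⟩ := bs1 hA 0 (Λ0 := C0 * (B + 1)) (by positivity)
  refine ⟨c * (2 * |K|), by positivity, fun {a b L u} W h0 s z η ad => ?_⟩
  obtain ⟨Q', -, dQ⟩ := hA.sm_dt W.st.2.1 (hA.sm_Q 0 W.st)
  have := h (L := L) (D := 2 * |K|) (G := H.Q 1) W (by positivity)
    (hA.sm_sub (hA.sm_const |K|) (hA.sm_R W.st)) ((HasDt.static fun _ => |K|).sub (hE.dt_R W.st))
    (hA.sm_Q 0 W.st) dQ
    (fun t ht y => by linarith [(abs_le.1 (hK t (W.st.mem ht) y)).2, le_abs_self K])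
    (fun t ht => hE.Q_nonneg _ t (W.st.mem ht)) (fun t ht => hE.Q_nonneg _ t (W.st.mem ht))
    (fun t ht => hE.kato_Q _ t (W.st.mem ht)) (fun t y η ad => by
      have tm := W.st.mem ad.mem
      have K0 := abs_nonneg K
      refine ⟨?_, ?_, ?_⟩
      · rw [pow_zero, one_mul]; linarith [(abs_le.1 (hK t tm y)).1, le_abs_self K]
      · rw [hA.lap_sub tm (hA.s0_const _) (hA.s0_R tm), hA.lap_const tm]
        have : 0 - (H.lap t (H.R t) y + 2 * H.Q 0 t y) - (0 - H.lap t (H.R t) y) +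
          2 * H.Q 0 t y = 0 := by ring
        rw [this, mul_zero]; positivity
      · have a1 := mul_le_mul_of_nonneg_left ((le_abs_self _).trans (d0 W.st dQ t ad.mem y))
          (pow_pos ad.pos (0 + 4)).le
        have a2 := sqrt2 (s := 0 + 2) ad.pos (hE.N_nonneg 0 t tm y) (hE.Q_nonneg 0 t tm y)
          (h0 t y η ad)
        have a3 := mul_le_mul_of_nonneg_left a2 hC0
        simp only [zero_add, Finset.range_one, Finset.sum_singleton, Nat.sub_zero] at a1 a3 ⊢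
        norm_num at a3
        linarith) s z η ad
  simpa using this

end Crest.Agent.N207.E

end
end

-- ▼ part N207/E/Reg1

/-! Block E (helper10): windows, and the first pass of the ε-regularity theorem. -/

set_option autoImplicit false
set_option linter.dupNamespace false
set_option linter.unusedSectionVars false
open Set MeasureTheory Filter Topology
open scoped ContDiff

noncomputable section

namespace Crest.Agent.N207.E

universe v

variable {M : Type v} [TopologicalSpace M] [CompactSpace M] [MeasurableSpace M]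
  [OpensMeasurableSpace M] {H : HC M}

lemma ball_meas (hD : H.Dist) {t : ℝ} (ht : t ∈ Ioo 0 H.T) (x : M) (r : ℝ) :
    MeasurableSet (H.B t x r) :=
  (isOpen_lt (hD.cont t ht x) continuous_const).measurableSet

lemma ball_sub (hD : H.Dist) {t : ℝ} (ht : t ∈ Ioo 0 H.T) {x y : M} {r : ℝ}
    (hy : y ∈ H.B t x (r / 2)) : H.B t y (r / 2) ⊆ H.B t x r := fun z hz => by
  have := hD.tri t ht x y z
  have h1 : H.d t x y < r / 2 := hy
  have h2 : H.d t y z < r / 2 := hz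
  show H.d t x z < r
  linarith

lemma en_mono (hA : H.Alg) (hI : H.Intg) (hE : H.Evo) {t : ℝ} (ht : t ∈ Ioo 0 H.T) {x y : M}
    {r ρ : ℝ} (h : H.B t y ρ ⊆ H.B t x r) : H.en t y ρ ≤ H.en t x r :=
  setIntegral_mono_set (hA.integrable hI ht (hA.s0_N ht 0)).integrableOn
    (Eventually.of_forall fun z => hE.N_nonneg 0 t ht z) h.eventuallyLE

lemma en_nonneg (hE : H.Evo) {t : ℝ} (ht : t ∈ Ioo 0 H.T) (x : M) (r : ℝ) : 0 ≤ H.en t x r :=
  integral_nonneg fun z => hE.N_nonneg 0 t ht z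

/-- a cut-off integral is below the integral over a set containing the support -/
lemma int_cut_le {μ : Measure M} {S : Set M} (hS : MeasurableSet S) {Φ P : M → ℝ}
    (iP : Integrable P μ) (P0 : ∀ z, 0 ≤ P z) (Φ0 : ∀ z, 0 ≤ Φ z) (Φ1 : ∀ z, Φ z ≤ 1)
    (h : ∀ z, z ∉ S → Φ z = 0) : ∫ z, Φ z * P z ∂μ ≤ ∫ z in S, P z ∂μ := by
  rw [← integral_indicator hS]
  refine integral_mono_of_nonneg (Eventually.of_forall fun z => mul_nonneg (Φ0 z) (P0 z))
    (iP.indicator hS) (Eventually.of_forall fun z => ?_)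
  by_cases hz : z ∈ S
  · simpa [hz] using mul_le_of_le_one_left (P0 z) (Φ1 z)
  · simp [hz, h z hz]

/-- a nonnegative function bounded by `m` and supported in `S` -/
lemma int_le_vol {μ : Measure M} [IsFiniteMeasure μ] {S : Set M} (hS : MeasurableSet S)
    {g : M → ℝ} {m : ℝ} (g0 : ∀ z, 0 ≤ g z) (h1 : ∀ z ∈ S, g z ≤ m) (h2 : ∀ z, z ∉ S → g z = 0) :
    ∫ z, g z ∂μ ≤ m * μ.real S := by
  have : ∫ z, S.indicator (fun _ => m) z ∂μ = m * μ.real S := by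
    rw [integral_indicator hS]; simp [mul_comm]
  rw [← this]
  refine integral_mono_of_nonneg (Eventually.of_forall g0) ((integrable_const m).indicator hS)
    (Eventually.of_forall fun z => ?_)
  by_cases hz : z ∈ S
  · simpa [hz] using h1 z hz
  · simp [hz, h2 z hz]

/-- upper distance distortion from time `t1` on, with constant `A` -/
def DU (H : HC M) (t1 A : ℝ) : Prop :=
  ∀ s t : ℝ, t1 ≤ s → s ≤ t → t < H.T → ∀ x y, H.d t x y ≤ A * (H.d s x y + √(t - s))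

/-- the standard window at the point `(s,y)` -/
theorem exists_win (hA : H.Alg) (hE : H.Evo) (hS : H.Solv) (hD : H.Dist) :
    ∃ δ0, 0 < δ0 ∧ δ0 ≤ 1 / 2 ∧ ∀ {t1 A δ l s : ℝ}, 0 < A → DU H t1 A → 0 < δ → δ ≤ δ0 → 0 < l →
      0 < t1 → t1 ≤ s - (δ * l) ^ 2 → s < H.T → ∀ y, ∃ u, Win H (s - (δ * l) ^ 2) s u ∧
        Adm (s - (δ * l) ^ 2) s l u s y (δ * l) ∧ ∀ σ ∈ Icc (s - (δ * l) ^ 2) s, ∀ z,
          u σ z ≤ 2 * l → ∀ τ, s - (δ * l) ^ 2 ≤ τ → τ ≤ s + (δ * l) ^ 2 → τ < H.T →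
            H.d τ y z ≤ 4 * A * l := by
  obtain ⟨C, hC, h⟩ := hA.exists_lipheat hE hS hD
  refine ⟨min (1 / 2) (1 / (8 * C)), by positivity, min_le_left _ _, ?_⟩
  intro t1 A δ l s A0 hU δ0 δ1 l0 t10 h1 h2 y
  have d1 : δ ≤ 1 / 2 := δ1.trans (min_le_left _ _)
  have d2 : δ * (8 * C) ≤ 1 := (le_div_iff₀ (by positivity)).1 (δ1.trans (min_le_right _ _))
  have e0 : 0 < δ * l := by positivity
  have e2 : 0 < (δ * l) ^ 2 := by positivity
  set a := s - (δ * l) ^ 2 with ha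
  have st : H.St a s := ⟨by linarith, by linarith, h2⟩
  obtain ⟨u, hu, lip, -, -, cl, -⟩ := h st y (l / 8) (by positivity)
  have cl' : ∀ σ ∈ Icc a s, ∀ z, |u σ z - H.d a y z| ≤ l / 4 := fun σ hσ z => by
    have : √(σ - a) ≤ δ * l := by rw [Real.sqrt_le_left e0.le]; linarith [hσ.2]
    have := mul_le_mul_of_nonneg_left this hC.le
    nlinarith [cl σ hσ z]
  have sm : s ∈ Icc a s := right_mem_Icc.2 st.2.1.le
  refine ⟨u, ⟨st, hu, lip⟩, ⟨sm, e0, ?_, by linarith⟩, fun σ hσ z hz τ a1 a2 a3 => ?_⟩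
  · have := (abs_le.1 (cl' s sm y)).2
    rw [hD.self a (st.mem (left_mem_Icc.2 st.2.1.le))] at this
    nlinarith
  · have b1 := (abs_le.1 (cl' σ hσ z)).1
    have b2 : √(τ - a) ≤ l := by
      rw [Real.sqrt_le_left l0.le]
      have : δ ^ 2 ≤ 1 / 4 := by nlinarith
      nlinarith [mul_le_mul_of_nonneg_right this (sq_nonneg l)]
    have := hU a τ h1 a1 a3 y z
    nlinarith

lemma Fam.sub0 {P : ℕ → ℝ → M → ℝ} (F : Fam H P) : ∃ C, 0 ≤ C ∧ ∀ {a b : ℝ} {P' : ℝ → M → ℝ},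
    H.St a b → HasDt a b (P 0) P' → ∀ t ∈ Icc a b, ∀ x,
      P' t x - H.lap t (P 0 t) x ≤ C * √(H.N 0 t x) * P 0 t x - 2 * P 1 t x := by
  obtain ⟨C, hC, h⟩ := F.dt 0
  refine ⟨C, hC, fun st d t ht x => ?_⟩
  have := (le_abs_self _).trans (h st d t ht x)
  simp only [zero_add, Finset.range_one, Finset.sum_singleton, Nat.sub_zero] at this
  rw [mul_assoc √_, Real.mul_self_sqrt (F.nn 0 t (st.mem ht) x)] at this
  linarith

lemma Fam.loc {P : ℕ → ℝ → M → ℝ} (F : Fam H P) {a b L : ℝ} {u Φ P' : ℝ → M → ℝ}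
    (W : Win H a b u) (sΦ : H.Sm a b Φ) (Φ0 : ∀ t ∈ Icc a b, ∀ y, 0 ≤ Φ t y)
    (Φ1 : ∀ t ∈ Icc a b, ∀ y, u t y ≤ L → 1 ≤ Φ t y) (d : HasDt a b (P 0) P') :
    Loc H a b L u Φ (P 0) P' (P 1) :=
  ⟨W.st, W.heat, W.lip, sΦ, Φ0, Φ1, F.sm 0 W.st, d, fun t ht => F.nn 0 t (W.st.mem ht),
    fun t ht => F.nn 1 t (W.st.mem ht), fun t ht => F.kato 0 t (W.st.mem ht)⟩

lemma psi_div_cd (l : ℝ) : ContDiff ℝ ∞ fun s : ℝ => psi (s / l) :=
  psi_cd.comp (contDiff_id.div_const l)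

lemma rescale {e r x C : ℝ} {n N : ℕ} (e0 : 0 < e) (e1 : e ≤ 1) (hn : n ≤ N) (hC : 0 ≤ C)
    (h : (e * r) ^ n * x ≤ C) : r ^ n * x ≤ C / e ^ N := by
  have h1 : r ^ n * x ≤ C / e ^ n := by
    rw [le_div_iff₀ (by positivity)]; rw [mul_pow] at h; linarith
  exact h1.trans (div_le_div_of_nonneg_left hC (by positivity) (pow_le_pow_of_le_one e0.le e1 hn))

/-- the conclusion of the first pass -/
def R1 (H : HC M) (t0 ε0 c r0 : ℝ) : Prop :=
  ∀ k : ℕ, ∃ C, 0 ≤ C ∧ ∀ t ∈ Ico t0 H.T, ∀ y r, 0 < r → r ≤ r0 → H.en t y r ≤ ε0 →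
    ∀ s ∈ Ioo 0 H.T, |s - t| ≤ c * r ^ 2 → ∀ i ≤ k,
      r ^ (4 + 2 * i) * H.N i s y ≤ C ∧ r ^ (2 + 2 * i) * H.Q i s y ≤ C

/-- **first pass** -/
theorem reg1 (h : H.Ok) {t0 C A : ℝ} (h0 : 0 < t0) (hC : 0 ≤ C) (hU : H.UC (t0 / 2) C) (A0 : 0 < A)
    (hA' : DU H (t0 / 2) A) (hP : H.EPers) :
    ∃ ε0 c r0, 0 < ε0 ∧ 0 < c ∧ 0 < r0 ∧ R1 H t0 ε0 c r0 := by
  obtain ⟨hA, hI, hE, hS, hD, -, -, -⟩ := h
  obtain ⟨C0, hC0, sub⟩ := (famN hA hE).sub0
  obtain ⟨ε1, ε10, reg⟩ := eps_reg0 hA hI hS hC hU hC0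
  obtain ⟨c', lam, r', c0, lam0, r'0, pers⟩ := hP t0 h0 (ε1 / 2) (by positivity)
  obtain ⟨δ0, δ00, δ01, win⟩ := exists_win hA hE hS hD
  set μ := min 1 (lam / (8 * A)) with hμ
  have μ0 : 0 < μ := by positivity
  have μ1 : μ ≤ 1 := min_le_left _ _
  have μ2 : μ * (8 * A) ≤ lam := (le_div_iff₀ (by positivity)).1 (min_le_right _ _)
  set δ := min δ0 (min c' (t0 / 2)) with hδ
  have δp : 0 < δ := by positivity
  have δ1 : δ ≤ δ0 := min_le_left _ _
  have δ2 : δ ≤ c' := (min_le_right _ _).trans (min_le_left _ _)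
  have δ3 : δ ≤ t0 / 2 := (min_le_right _ _).trans (min_le_right _ _)
  have e0 : 0 < δ * μ := by positivity
  have e1 : δ * μ ≤ δ := mul_le_of_le_one_right δp.le μ1
  have e2 : 2 * (δ * μ) ^ 2 ≤ δ := by nlinarith
  refine ⟨ε1 / 2, (δ * μ) ^ 2, min r' 1, by positivity, by positivity, by positivity, fun k => ?_⟩
  obtain ⟨B, hB, tN⟩ := towerN hA hE (B := 256) (by norm_num) k
  obtain ⟨D, hD0, r0⟩ := ric0 hA hE (B := 256) (by norm_num)
  obtain ⟨B', hB', tQ⟩ := towerL hA hE (famQ hA hE) 2 hB k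
  refine ⟨(B + B' * D) / (δ * μ) ^ (4 + 2 * k), by positivity, ?_⟩
  intro t ht y r r0' r1 en s hs hst i hi
  have r2 : r ≤ 1 := r1.trans (min_le_right _ _)
  have rr : r ^ 2 ≤ 1 := by nlinarith
  have p2 : 0 < r ^ 2 := by positivity
  have e3 : (δ * (μ * r)) ^ 2 = (δ * μ) ^ 2 * r ^ 2 := by ring
  have e4 : 2 * ((δ * μ) ^ 2 * r ^ 2) ≤ δ * r ^ 2 := by nlinarith
  have e5 : δ * r ^ 2 ≤ c' * r ^ 2 := by nlinarith
  have e6 : δ * r ^ 2 ≤ t0 / 2 := by nlinarith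
  have ab := abs_le.1 hst
  obtain ⟨u, W, ad, sp⟩ := win A0 hA' δp δ1 (l := μ * r) (s := s) (by positivity) (by positivity)
    (by linarith [ht.1]) hs.2 y
  obtain ⟨N', -, dN⟩ := hA.sm_dt W.st.2.1 (hA.sm_N 0 W.st)
  have l0 : 0 < μ * r := by positivity
  have n0 : ∀ t y η, Adm (s - (δ * (μ * r)) ^ 2) s (μ * r) u t y η → η ^ 4 * H.N 0 t y ≤ 256 :=
    fun τ z η ad => reg ((famN hA hE).loc W (hA.sm_compU (psi_div_cd (μ * r)) W.heat.1)
      (fun _ _ _ => psi_nonneg _) (fun _ _ _ hl => (psi_one ((div_le_one l0).2 hl)).ge) dN)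
      (by linarith [ht.1]) (fun σ hσ z _ => sub W.st dN σ hσ z) (fun σ hσ => by
        have hm := W.st.mem hσ
        have := pers t ht y r r0' (r1.trans (min_le_left _ _)) en σ hm
          (abs_le.2 ⟨by linarith [hσ.1], by linarith [hσ.2]⟩)
        refine (int_cut_le (ball_meas hD hm y (lam * r)) (hA.integrable hI hm (hA.s0_N hm 0))
          (hE.N_nonneg 0 σ hm) (fun _ => psi_nonneg _) (fun _ => psi_le_one _) fun z hz => ?_).trans
          (this.trans (by linarith))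
        refine psi_zero ((le_div_iff₀ l0).2 (not_lt.1 fun hl => hz ?_))
        have := sp σ hσ z hl.le σ hσ.1 (by nlinarith [hσ.2]) hm.2
        show H.d σ y z < lam * r
        nlinarith [mul_pos A0 l0]) τ ad.mem z η ad.pos.le ad.lev ad.tim
  have q1 := tN W n0 i hi s y _ ad
  have q2 := tQ W hD0 (tN W n0) (r0 W n0) i hi s y _ ad
  rw [← mul_assoc] at q1 q2
  have BD : 0 ≤ B' * D := by positivity
  have e7 : δ * μ ≤ 1 := by linarith
  exact ⟨rescale e0 e7 (by omega) (by positivity) (by linarith),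
    rescale e0 e7 (by omega) (by positivity) (by linarith)⟩

end Crest.Agent.N207.E

end
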