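import Crest.Agent.N207.C.LogB
import Crest.Agent.N207.C.Stmt
import Crest.Agent.N207.E.Cut
import Crest.Agent.N207.C.Cutf
import Crest.Agent.N207.D.Flux
import Crest.Agent.N207.C.Lip
import Crest.Agent.N207.E.Reg1
import Crest.Agent.N207.C.DistUp
import Crest.Agent.N207.D.QLoc

-- ▼ part N207/E/St1
section

/-!
# Row 207, block E (static persistence, helper83): the potential of a static source

`u' = Δ u + (F - u) / l²`, `u a = 0`.
-/

set_option autoImplicit false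
set_option linter.dupNamespace false
set_option linter.unusedSectionVars false
open Set MeasureTheory Filter Topology
open scoped ContDiff

noncomputable section

namespace Crest.Agent.N207

namespace HC

variable {M : Type*} [TopologicalSpace M] [CompactSpace M] [MeasurableSpace M] {H : HC M}

/-- the time derivative of the potential -/
def potV (H : HC M) (l : ℝ) (F : M → ℝ) (u : ℝ → M → ℝ) (t : ℝ) (x : M) : ℝ :=
  H.lap t (u t) x + (F x - u t x) / l ^ 2

/-- the potential of the static source `F` -/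
structure Pot (H : HC M) (a b l : ℝ) (F : M → ℝ) (u : ℝ → M → ℝ) : Prop where
  st : H.St a b
  lp : 0 < l
  F0 : H.S0 F
  Fn : ∀ x, 0 ≤ F x
  F1 : ∀ x, F x ≤ 1
  sm : H.Sm a b u
  dt : HasDt a b u (H.potV l F u)
  init : ∀ x, u a x = 0

theorem exists_pot (A : H.Alg) (S : H.Solv2) {a b l : ℝ} {F : M → ℝ} (hs : H.St a b)
    (hl : 0 < l) (F0 : H.S0 F) (Fn : ∀ x, 0 ≤ F x) (F1 : ∀ x, F x ≤ 1) :
    ∃ u, H.Pot a b l F u := by
  have s1 : H.Sm a b fun t (_ : M) => Real.exp ((t - a) / l ^ 2) := A.sm_timeU (by fun_prop)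
  have s2 : H.Sm a b fun t (_ : M) => Real.exp (-((t - a) / l ^ 2)) := A.sm_timeU (by fun_prop)
  obtain ⟨U, sU, dU, iU⟩ := S hs (A.sm_mul s1 (A.sm_static (A.s0_cmul (l ^ 2)⁻¹ F0)))
    (A.s0_const 0)
  have d2 : HasDt a b (fun t (_ : M) => Real.exp (-((t - a) / l ^ 2)))
      fun t _ => Real.exp (-((t - a) / l ^ 2)) * (-(1 / l ^ 2)) :=
    HasDt.time fun t _ => ((((hasDerivAt_id t).sub_const a).div_const (l ^ 2)).neg).exp
  refine ⟨fun t x => Real.exp (-((t - a) / l ^ 2)) * U t x, hs, hl, F0, Fn, F1, A.sm_mul s2 sU,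
    (d2.mul dU).congr_d fun t ht x => ?_, fun x => by simp [iU]⟩
  unfold potV
  rw [A.lap_cmul (hs.mem ht) _ (A.sm_s0 sU t ht)]
  have e : Real.exp (-((t - a) / l ^ 2)) * Real.exp ((t - a) / l ^ 2) = 1 := by
    rw [← Real.exp_add]; simp
  have : Real.exp (-((t - a) / l ^ 2)) * (Real.exp ((t - a) / l ^ 2) * ((l ^ 2)⁻¹ * F x)) =
      F x / l ^ 2 := by rw [← mul_assoc, e]; ring
  rw [mul_add, this]
  ring

namespace Pot

variable (A : H.Alg) {a b l : ℝ} {F : M → ℝ} {u : ℝ → M → ℝ} (P : H.Pot a b l F u)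
include A P

theorem mono {b' : ℝ} (h1 : a < b') (h2 : b' ≤ b) : H.Pot a b' l F u :=
  ⟨P.st.mono le_rfl h1 h2, P.lp, P.F0, P.Fn, P.F1, A.sm_mono P.sm le_rfl h2,
    P.dt.mono le_rfl h2, P.init⟩

/-- comparison with a subsolution on a later strip -/
theorem sub_cmp {a' b' : ℝ} (h0 : a ≤ a') (h1 : a' < b') (h2 : b' ≤ b) {w w' : ℝ → M → ℝ}
    (sw : H.Sm a' b' w) (dw : HasDt a' b' w w') (i : ∀ x, w a' x ≤ u a' x)
    (h : ∀ t ∈ Icc a' b', ∀ x, w' t x ≤ H.lap t (w t) x + (F x - w t x) / l ^ 2) :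
    ∀ t ∈ Icc a' b', ∀ x, w t x ≤ u t x := by
  have hs := P.st.mono h0 h1 h2
  have su := A.sm_mono P.sm h0 h2
  have key := A.maxp hs (A.sm_sub sw su) (dw.sub (P.dt.mono h0 h2)) 0
    (fun x => sub_nonpos.2 (i x)) fun t ht x hp hl _ => by
      have hm : t ∈ Icc a' b' := Ioc_subset_Icc_self ht
      rw [A.lap_sub (hs.mem hm) (A.sm_s0 sw t hm) (A.sm_s0 su t hm)] at hl
      have h3 := h t hm x
      have h4 : (F x - w t x) / l ^ 2 ≤ (F x - u t x) / l ^ 2 :=
        div_le_div_of_nonneg_right (by linarith) (sq_nonneg l)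
      unfold potV
      linarith
  exact fun t ht x => sub_nonpos.1 (key t ht x)

/-- comparison with a supersolution -/
theorem sup_cmp {b' : ℝ} (h1 : a < b') (h2 : b' ≤ b) {w w' : ℝ → M → ℝ}
    (sw : H.Sm a b' w) (dw : HasDt a b' w w') (i : ∀ x, 0 ≤ w a x)
    (h : ∀ t ∈ Icc a b', ∀ x, H.lap t (w t) x + (F x - w t x) / l ^ 2 ≤ w' t x) :
    ∀ t ∈ Icc a b', ∀ x, u t x ≤ w t x := by
  have hs := P.st.mono le_rfl h1 h2
  have su := A.sm_mono P.sm le_rfl h2
  have key := A.maxp hs (A.sm_sub su sw) ((P.dt.mono le_rfl h2).sub dw) 0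
    (fun x => by rw [P.init x]; linarith [i x]) fun t ht x hp hl _ => by
      have hm : t ∈ Icc a b' := Ioc_subset_Icc_self ht
      rw [A.lap_sub (hs.mem hm) (A.sm_s0 su t hm) (A.sm_s0 sw t hm)] at hl
      have h3 := h t hm x
      have h4 : (F x - u t x) / l ^ 2 ≤ (F x - w t x) / l ^ 2 :=
        div_le_div_of_nonneg_right (by linarith) (sq_nonneg l)
      unfold potV
      linarith
  exact fun t ht x => sub_nonpos.1 (key t ht x)

theorem nonneg : ∀ t ∈ Icc a b, ∀ x, 0 ≤ u t x :=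
  P.sub_cmp A le_rfl P.st.2.1 le_rfl (A.sm_const 0) (HasDt.static fun _ => 0)
    (fun x => (P.init x).ge) fun t ht x => by
      rw [A.lap_const (P.st.mem ht)]
      have := div_nonneg (P.Fn x) (sq_nonneg l)
      simpa using this

theorem le_one : ∀ t ∈ Icc a b, ∀ x, u t x ≤ 1 :=
  P.sup_cmp A P.st.2.1 le_rfl (A.sm_const 1) (HasDt.static fun _ => 1)
    (fun _ => zero_le_one) fun t ht x => by
      rw [A.lap_const (P.st.mem ht)]
      have := div_nonpos_of_nonpos_of_nonneg (sub_nonpos.2 (P.F1 x)) (sq_nonneg l)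
      simpa using this

theorem smV : H.Sm a b (H.potV l F u) := A.sm_of_dt P.st.2.1 P.sm P.dt

/-- evolution of the gradient -/
theorem dG (E : H.Evo) : HasDt a b (fun t => H.gam t (u t) (u t)) fun t x =>
    H.lap t (H.gam t (u t) (u t)) x +
      2 * (H.gam t (u t) F x - H.gam t (u t) (u t) x) / l ^ 2 - 2 * H.hh t (u t) x := by
  refine (E.dt_gam P.st P.sm P.dt).congr_d fun t ht x => ?_
  have hT := P.st.mem ht
  have u0 := A.sm_s0 P.sm t ht
  have e : (fun y => H.potV l F u t y - H.lap t (u t) y) = fun y => (l ^ 2)⁻¹ * (F y - u t y) := by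
    funext y; unfold potV; ring
  rw [e, A.gam_cmul' hT _ (A.s0_sub P.F0 u0) u0, A.gam_sub' hT P.F0 u0 u0]
  ring

theorem gam_uF {t : ℝ} (ht : t ∈ Icc a b) (x : M) :
    2 * H.gam t (u t) F x ≤ H.gam t (u t) (u t) x + H.gam t F F x := by
  have := A.gam_quad (P.st.mem ht) (A.sm_s0 P.sm t ht) P.F0 (-1) x
  linarith

theorem gam_init (x : M) : H.gam a (u a) (u a) x = 0 := by
  have e : u a = fun _ => 0 := funext P.init
  rw [e, A.gam_const (P.st.mem ⟨le_rfl, P.st.2.1.le⟩) 0 (A.s0_const 0)]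

/-- gradient bound -/
theorem grad (E : H.Evo) {G : ℝ} (hG : 0 ≤ G) (hF : ∀ t ∈ Icc a b, ∀ x, H.gam t F F x ≤ G) :
    ∀ t ∈ Icc a b, ∀ x, H.gam t (u t) (u t) x ≤ G := by
  have sG := A.sm_gam P.st P.sm P.sm
  have key := A.maxp P.st (A.sm_sub sG (A.sm_const G))
    ((P.dG A E).sub (HasDt.static fun _ => G)) 0
    (fun x => by rw [P.gam_init A]; linarith) fun t ht x hp hl _ => by
      have hm : t ∈ Icc a b := Ioc_subset_Icc_self ht
      have hT := P.st.mem hm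
      rw [A.lap_sub hT (A.sm_s0 sG t hm) (A.s0_const G), A.lap_const hT] at hl
      have h1 := P.gam_uF A hm x
      have h2 := hF t hm x
      have h3 := E.hh_nonneg t hT (A.sm_s0 P.sm t hm) x
      have h4 : 2 * (H.gam t (u t) F x - H.gam t (u t) (u t) x) / l ^ 2 ≤ 0 :=
        div_nonpos_of_nonpos_of_nonneg (by linarith) (sq_nonneg l)
      linarith
  exact fun t ht x => sub_nonpos.1 (key t ht x)

/-- evolution of the speed -/
theorem dV (E : H.Evo) : HasDt a b (H.potV l F u) fun t x =>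
    H.lap t (H.potV l F u t) x + 2 * H.rh t (u t) x - H.potV l F u t x / l ^ 2 := by
  have h1 := E.dt_lap P.st P.sm P.dt
  have h2 := ((HasDt.static (a := a) (b := b) F).sub P.dt).cmul (l ^ 2)⁻¹
  refine ((h1.add h2).congr fun t _ x => ?_).congr_d fun t _ x => ?_
  · unfold potV; ring
  · ring

/-- the speed bound -/
theorem speed (E : H.Evo) {K G : ℝ} (hK : ∀ t ∈ Ioo 0 H.T, ∀ x, |H.R t x| ≤ K) (hG : 0 ≤ G)
    (hF : ∀ t ∈ Icc a b, ∀ x, H.gam t F F x ≤ G / l ^ 2) :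
    ∀ t ∈ Icc a b, ∀ x, |H.potV l F u t x| ≤
      Real.exp (-((t - a) / l ^ 2)) / l ^ 2 + (G + K / 2) / l := by
  have hl := P.lp
  have sG := A.sm_gam P.st P.sm P.sm
  have sV := P.smV A
  have sR := A.sm_R P.st
  have s2 : H.Sm a b fun t (_ : M) => Real.exp (-((t - a) / l ^ 2)) / l ^ 2 + (G + K / 4) / l :=
    A.sm_timeU (by fun_prop)
  have d2 : HasDt a b (fun t (_ : M) => Real.exp (-((t - a) / l ^ 2)) / l ^ 2 + (G + K / 4) / l)
      fun t _ => Real.exp (-((t - a) / l ^ 2)) * (-(1 / l ^ 2)) / l ^ 2 :=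
    HasDt.time fun t _ =>
      ((((((hasDerivAt_id t).sub_const a).div_const (l ^ 2)).neg).exp).div_const _).add_const _
  have main : ∀ σ : ℝ, σ ^ 2 = 1 → ∀ t ∈ Icc a b, ∀ x, σ * H.potV l F u t x +
      l * H.gam t (u t) (u t) x - (4 * l)⁻¹ * H.R t x -
        (Real.exp (-((t - a) / l ^ 2)) / l ^ 2 + (G + K / 4) / l) ≤ 0 := by
    intro σ hσ
    have s1 := A.sm_cmul σ sV
    have s3 := A.sm_cmul l sG
    have s4 := A.sm_cmul (4 * l)⁻¹ sR
    refine A.maxp P.st (A.sm_sub (A.sm_sub (A.sm_add s1 s3) s4) s2)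
      (((((P.dV A E).cmul σ).add ((P.dG A E).cmul l)).sub
        ((E.dt_R P.st).cmul (4 * l)⁻¹)).sub d2) 0 (fun x => ?_) fun t ht x hp hl' _ => ?_
    · have ha : a ∈ Icc a b := ⟨le_rfl, P.st.2.1.le⟩
      have hT := P.st.mem ha
      have e : u a = fun _ => 0 := funext P.init
      have h1 : H.potV l F u a x = F x / l ^ 2 := by
        unfold potV; rw [e, A.lap_const hT]; simp
      have h2 : σ * F x ≤ 1 := by nlinarith [P.Fn x, P.F1 x, sq_nonneg (σ - 1), sq_nonneg (σ + 1)]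
      have h3 : σ * (F x / l ^ 2) ≤ 1 / l ^ 2 := by
        rw [← mul_div_assoc]; exact div_le_div_of_nonneg_right h2 (sq_nonneg l)
      have h4 := (abs_le.1 (hK a hT x)).1
      have h5 : -((4 * l)⁻¹ * H.R a x) ≤ (G + K / 4) / l := by
        have : (G + K / 4) / l = (4 * l)⁻¹ * (4 * G + K) := by field_simp
        rw [this, ← mul_neg]
        exact mul_le_mul_of_nonneg_left (by linarith) (by positivity)
      rw [h1, P.gam_init A]
      simp only [sub_self, zero_div, neg_zero, Real.exp_zero]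
      linarith
    · have hm : t ∈ Icc a b := Ioc_subset_Icc_self ht
      have hT := P.st.mem hm
      have u0 := A.sm_s0 P.sm t hm
      have v0 := A.sm_s0 sV t hm
      have g0 := A.sm_s0 sG t hm
      have r0 := A.sm_s0 sR t hm
      rw [A.lap_sub hT (A.s0_sub (A.s0_add (A.s0_cmul σ v0) (A.s0_cmul l g0))
          (A.s0_cmul _ r0)) (A.s0_const _), A.lap_const hT,
        A.lap_sub hT (A.s0_add (A.s0_cmul σ v0) (A.s0_cmul l g0)) (A.s0_cmul _ r0),
        A.lap_add t hT (A.s0_cmul σ v0) (A.s0_cmul l g0), A.lap_cmul hT _ v0,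
        A.lap_cmul hT _ g0, A.lap_cmul hT _ r0] at hl'
      have h1 := P.gam_uF A hm x
      have h2 := hF t hm x
      have h3 := E.hh_nonneg t hT u0 x
      have h4 := E.rh_sq t hT u0 x
      have h5 := E.Q_nonneg 0 t hT x
      have h6 := (abs_le.1 (hK t hT x)).1
      set v := H.potV l F u t x
      set g := H.gam t (u t) (u t) x
      set hh := H.hh t (u t) x
      set q := H.Q 0 t x
      set rh := H.rh t (u t) x
      set ee := Real.exp (-((t - a) / l ^ 2))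
      have h7 : σ * (2 * rh) ≤ l * (2 * hh) + (4 * l)⁻¹ * (2 * q) := by
        have e1 : l * (2 * hh) + (4 * l)⁻¹ * (2 * q) = (4 * l ^ 2 * hh + q) / (2 * l) := by
          field_simp; ring
        rw [e1, le_div_iff₀ (by positivity)]
        refine le_of_abs_le (abs_le_of_sq_le_sq' ?_ (by positivity) |> abs_le.2)
        have : (σ * (2 * rh) * (2 * l)) ^ 2 = 16 * l ^ 2 * rh ^ 2 := by
          rw [mul_pow, mul_pow, hσ]; ring
        rw [this]
        nlinarith [sq_nonneg (4 * l ^ 2 * hh - q), mul_le_mul_of_nonneg_left h4 (sq_nonneg l)]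
      have h8 : l * (2 * (H.gam t (u t) F x - g) / l ^ 2) ≤ (G / l - l * g) / l ^ 2 := by
        rw [← mul_div_assoc]
        refine div_le_div_of_nonneg_right ?_ (sq_nonneg l)
        have : G / l = l * (G / l ^ 2) := by field_simp
        rw [this]
        nlinarith
      have h9 : (4 * l)⁻¹ * H.R t x + K / 4 / l ≥ 0 := by
        have : K / 4 / l = (4 * l)⁻¹ * K := by field_simp
        rw [this, ← mul_add]
        exact mul_nonneg (by positivity) (by linarith)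
      have h10 : (G + K / 4) / l = G / l + K / 4 / l := by ring
      have h11 : (-(σ * v) + (G / l - l * g) + ee / l ^ 2) / l ^ 2 ≤ 0 :=
        div_nonpos_of_nonpos_of_nonneg (by linarith) (sq_nonneg l)
      have h12 : (-(σ * v) + (G / l - l * g) + ee / l ^ 2) / l ^ 2 =
          -(σ * (v / l ^ 2)) + (G / l - l * g) / l ^ 2 - ee * (-(1 / l ^ 2)) / l ^ 2 := by ring
      nlinarith
  intro t ht x
  have hT := P.st.mem ht
  have h1 := main 1 (by norm_num) t ht x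
  have h2 := main (-1) (by norm_num) t ht x
  have h3 := A.gam_nonneg t hT (A.sm_s0 P.sm t ht) x
  have h4 := (abs_le.1 (hK t hT x)).2
  have h5 : (4 * l)⁻¹ * H.R t x ≤ K / 4 / l := by
    have : K / 4 / l = (4 * l)⁻¹ * K := by field_simp
    rw [this]
    exact mul_le_mul_of_nonneg_left h4 (by positivity)
  have h6 : (G + K / 2) / l = (G + K / 4) / l + K / 4 / l := by ring
  have h7 := mul_nonneg hl.le h3
  rw [abs_le]
  constructor <;> linarith

end Pot

end HC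

end Crest.Agent.N207

end
end

-- ▼ part N207/E/St2
section

/-!
# Row 207, block E (static persistence, helper83): barriers for the potential
-/

set_option autoImplicit false
set_option linter.dupNamespace false
set_option linter.unusedSectionVars false
open Set MeasureTheory Filter Topology
open scoped ContDiff

noncomputable section

namespace Crest.Agent.N207

/-- continuity method on a strip -/
theorem cont_ind {M : Type*} [TopologicalSpace M] [CompactSpace M] {a b m m' : ℝ}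
    {f : ℝ → M → ℝ} (hc : ContinuousOn (fun p : ℝ × M => f p.1 p.2) (Icc a b ×ˢ univ))
    (hm : m < m') (h0 : ∀ y, f a y ≤ m')
    (h : ∀ t ∈ Icc a b, (∀ s ∈ Icc a t, ∀ y, f s y ≤ m') → ∀ y, f t y ≤ m) :
    ∀ t ∈ Icc a b, ∀ y, f t y ≤ m' := by
  have hcl : IsClosed ({t | ∀ y, f t y ≤ m'} ∩ Icc a b) := by
    have : {t | ∀ y, f t y ≤ m'} ∩ Icc a b = Icc a b ∩ ⋂ y, (Icc a b ∩ (fun t => f t y) ⁻¹' Iic m') := by
      ext t
      simp only [mem_inter_iff, mem_ofPred_eq, mem_iInter, mem_preimage, mem_Iic]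
      exact ⟨fun h => ⟨h.2, fun y => ⟨h.2, h.1 y⟩⟩, fun h => ⟨fun y => (h.2 y).2, h.1⟩⟩
    rw [this]
    refine isClosed_Icc.inter (isClosed_iInter fun y => ?_)
    exact (hc.comp (f := fun t => (t, y)) (by fun_prop)
      fun _ ht => ⟨ht, mem_univ _⟩).preimage_isClosed_of_isClosed isClosed_Icc isClosed_Iic
  refine hcl.Icc_subset_of_forall_mem_nhdsGT_of_Icc_subset h0 fun t ht hs => ?_
  have htm : t ∈ Icc a b := Ico_subset_Icc_self ht
  have h1 := h t htm fun s hs' => hs hs'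
  have h2 : ∀ᶠ s in 𝓝[Icc a b] t, ∀ y ∈ (univ : Set M), f s y < m' := by
    have h3 : ∀ᶠ s in 𝓝 t, ∀ y ∈ (univ : Set M), s ∈ Icc a b → f s y < m' := by
      refine (isCompact_univ (X := M)).eventually_forall_of_forall_eventually
        (P := fun s y => s ∈ Icc a b → f s y < m') fun y _ => ?_
      have h4 : ∀ᶠ p : ℝ × M in 𝓝[Icc a b ×ˢ univ] (t, y), f p.1 p.2 < m' :=
        (hc (t, y) ⟨htm, mem_univ _⟩).eventually_lt continuousWithinAt_const ((h1 y).trans_lt hm)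
      filter_upwards [eventually_nhdsWithin_iff.1 h4] with p hp hp1 using hp ⟨hp1, mem_univ _⟩
    filter_upwards [mem_nhdsWithin_of_mem_nhds h3, self_mem_nhdsWithin] with s hs hs2 y hy
      using hs y hy hs2
  have h5 : 𝓝[>] t ≤ 𝓝[Icc a b] t :=
    nhdsWithin_le_of_mem (mem_of_superset (Ioc_mem_nhdsGT ht.2)
      fun s hs => ⟨ht.1.trans hs.1.le, hs.2⟩)
  filter_upwards [h5 h2] with s hs y using (hs y (mem_univ y)).le

theorem psi_scale (c : ℝ) : (∀ s, deriv (fun s => E.psi (s / c)) s = deriv E.psi (s / c) / c) ∧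
    ∀ s, deriv (deriv fun s => E.psi (s / c)) s = deriv (deriv E.psi) (s / c) / c ^ 2 := by
  have h1 : ∀ s, deriv (fun s => E.psi (s / c)) s = deriv E.psi (s / c) / c := fun s => by
    have := ((E.psi_cd.differentiable (by simp) (s / c)).hasDerivAt.comp s
      ((hasDerivAt_id s).div_const c)).deriv
    simpa [div_eq_mul_inv, Function.comp_def] using this
  refine ⟨h1, fun s => ?_⟩
  rw [funext h1]
  have c1 : ContDiff ℝ ∞ (deriv E.psi) := E.psi_cd.iterate_deriv 1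
  have := (((c1.differentiable (by simp) (s / c)).hasDerivAt.comp s
      ((hasDerivAt_id s).div_const c)).div_const c).deriv
  refine Eq.trans ?_ (this.trans ?_)
  · rfl
  · ring

theorem psi_scale_cd (c : ℝ) : ContDiff ℝ ∞ fun s => E.psi (s / c) :=
  E.psi_cd.comp (contDiff_id.div_const c)

namespace HC

variable {M : Type*} [TopologicalSpace M] [CompactSpace M] [MeasurableSpace M] {H : HC M}

/-- the gradient of a static function changes at the rate of the Ricci curvature -/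
theorem gam_static (A : H.Alg) (E : H.Evo) {a b q : ℝ} (hs : H.St a b) {F : M → ℝ} (F0 : H.S0 F)
    {y : M} (hq : ∀ σ ∈ Icc a b, √(H.Q 0 σ y) ≤ q) {s t : ℝ} (hs' : s ∈ Icc a b)
    (ht : t ∈ Icc a b) : H.gam t F F y ≤ Real.exp (2 * q * |t - s|) * H.gam s F F y := by
  obtain ⟨G', -, dG⟩ := A.sm_dt hs.2.1 (A.sm_gam hs (A.sm_static F0) (A.sm_static F0))
  have hb : ∀ σ ∈ Icc a b, |G' σ y| ≤ 2 * q * H.gam σ F F y := fun σ hσ =>
    (E.dt_gam_static hs F0 dG σ hσ y).trans (mul_le_mul_of_nonneg_right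
      (by linarith [hq σ hσ]) (A.gam_nonneg σ (hs.mem hσ) F0 y))
  have hd : ∀ c : ℝ, ∀ σ ∈ Icc a b, HasDerivWithinAt
      (fun σ => Real.exp (c * σ) * H.gam σ F F y)
      (Real.exp (c * σ) * (c * H.gam σ F F y + G' σ y)) (Icc a b) σ := fun c σ hσ => by
    have h1 := (((hasDerivAt_id σ).const_mul c).exp.hasDerivWithinAt).mul (dG σ hσ y)
    refine HasDerivWithinAt.congr_deriv h1 ?_
    simp only [id]
    ring
  rcases le_total s t with hst | hst
  · have h1 := anti_of_deriv (hd (-(2 * q))) (fun σ hσ => mul_nonpos_of_nonneg_of_nonpos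
      (Real.exp_pos _).le (by linarith [(abs_le.1 (hb σ (Ioo_subset_Icc_self hσ))).2])) hs' ht hst
    simp only at h1
    have h2 := mul_le_mul_of_nonneg_left h1 (Real.exp_pos (2 * q * t)).le
    rw [← mul_assoc, ← mul_assoc, ← Real.exp_add, ← Real.exp_add] at h2
    rw [abs_of_nonneg (sub_nonneg.2 hst)]
    have e1 : 2 * q * t + -(2 * q) * t = 0 := by ring
    have e2 : 2 * q * t + -(2 * q) * s = 2 * q * (t - s) := by ring
    rwa [e1, e2, Real.exp_zero, one_mul] at h2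
  · have h1 := mono_of_deriv (hd (2 * q)) (fun σ hσ => mul_nonneg
      (Real.exp_pos _).le (by linarith [(abs_le.1 (hb σ (Ioo_subset_Icc_self hσ))).1])) ht hs' hst
    simp only at h1
    have h2 := mul_le_mul_of_nonneg_left h1 (Real.exp_pos (-(2 * q * t))).le
    rw [← mul_assoc, ← mul_assoc, ← Real.exp_add, ← Real.exp_add] at h2
    rw [abs_of_nonpos (sub_nonpos.2 hst)]
    have e1 : -(2 * q * t) + 2 * q * t = 0 := by ring
    have e2 : -(2 * q * t) + 2 * q * s = 2 * q * -(t - s) := by ring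
    rwa [e1, e2, Real.exp_zero, one_mul] at h2

/-- the cutoff of a heat function -/
theorem heat_cut (A : H.Alg) {a b c : ℝ} (hs : H.St a b) {U : ℝ → M → ℝ} (hU : H.Heat a b U) :
    H.Sm a b (fun t x => E.psi (U t x / c)) ∧
    HasDt a b (fun t x => E.psi (U t x / c)) fun t x =>
      H.lap t (fun y => E.psi (U t y / c)) x -
        deriv (deriv E.psi) (U t x / c) / c ^ 2 * H.gam t (U t) (U t) x := by
  refine ⟨A.sm_compU (φ := fun s => E.psi (s / c)) (psi_scale_cd c) hU.1,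
    (HasDt.comp (φ := fun s => E.psi (s / c)) isOpen_univ (psi_scale_cd c).contDiffOn
      (fun _ _ _ => mem_univ _) hU.2).congr_d fun t ht x => ?_⟩
  rw [A.lap_compU (φ := fun s => E.psi (s / c)) (hs.mem ht) (psi_scale_cd c)
    (A.sm_s0 hU.1 t ht), (psi_scale c).2]
  ring

namespace Pot

variable (A : H.Alg) {a b l : ℝ} {F : M → ℝ} {u : ℝ → M → ℝ} (P : H.Pot a b l F u)
include A P

/-- exponential decay away from the source -/
theorem upper {b' ρ : ℝ} (h1 : a < b') (h2 : b' ≤ b) {U : ℝ → M → ℝ} (hU : H.Heat a b' U)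
    (hg : ∀ t ∈ Icc a b', ∀ x, H.gam t (U t) (U t) x ≤ 1)
    (hρ : ∀ t ∈ Icc a b', ∀ x, F x ≠ 0 → U t x ≤ ρ) :
    ∀ t ∈ Icc a b', ∀ x, u t x ≤ 2 * Real.exp ((ρ - U t x) / (2 * l)) := by
  have hl := P.lp
  have hs := P.st.mono le_rfl h1 h2
  set φ : ℝ → ℝ := fun s => 2 * Real.exp ((ρ - s) / (2 * l)) with hφ
  have cφ : ContDiff ℝ ∞ φ := by simp only [hφ]; fun_prop
  have d1 : ∀ s, HasDerivAt φ (-(1 / (2 * l)) * φ s) s := fun s => by
    have := ((((hasDerivAt_id s).const_sub ρ).div_const (2 * l)).exp).const_mul 2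
    refine this.congr_deriv ?_
    simp only [hφ, id]; ring
  have e1 : deriv φ = fun s => -(1 / (2 * l)) * φ s := funext fun s => (d1 s).deriv
  have e2 : ∀ s, deriv (deriv φ) s = φ s / (4 * l ^ 2) := fun s => by
    rw [e1, ((d1 s).const_mul _).deriv]; field_simp; ring
  refine P.sup_cmp A h1 h2 (w := fun t x => φ (U t x)) (A.sm_compU cφ hU.1)
    (HasDt.comp (φ := φ) isOpen_univ cφ.contDiffOn (fun _ _ _ => mem_univ _) hU.2)
    (fun x => by simp only [hφ]; positivity) fun t ht x => ?_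
  rw [A.lap_compU (hs.mem ht) cφ (A.sm_s0 hU.1 t ht), e2]
  have hp : 0 < φ (U t x) := by simp only [hφ]; positivity
  have h3 : F x ≤ φ (U t x) / 2 := by
    by_cases hF : F x = 0
    · rw [hF]; positivity
    · have : 1 ≤ Real.exp ((ρ - U t x) / (2 * l)) :=
        Real.one_le_exp (div_nonneg (sub_nonneg.2 (hρ t ht x hF)) (by positivity))
      simp only [hφ]; linarith [P.F1 x]
  have h4 : φ (U t x) / (4 * l ^ 2) * H.gam t (U t) (U t) x ≤ φ (U t x) / (4 * l ^ 2) :=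
    mul_le_of_le_one_right (by positivity) (hg t ht x)
  have h5 : φ (U t x) / (4 * l ^ 2) + (F x - φ (U t x)) / l ^ 2 ≤ 0 := by
    have : φ (U t x) / (4 * l ^ 2) + (F x - φ (U t x)) / l ^ 2 =
        (F x - 3 / 4 * φ (U t x)) / l ^ 2 := by field_simp; ring
    rw [this]
    exact div_nonpos_of_nonpos_of_nonneg (by linarith) (sq_nonneg l)
  linarith

/-- phase 1 of the lower bound -/
theorem lower1 {K1 k t : ℝ} (hK : ∀ s, |deriv (deriv E.psi) s| ≤ K1 * E.chi s) (hK1 : 0 ≤ K1)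
    (hk : 1 ≤ k) (hat : a ≤ t) (htb : t + l ^ 2 ≤ b) {U : ℝ → M → ℝ}
    (hU : H.Heat t (t + l ^ 2) U)
    (hg : ∀ σ ∈ Icc t (t + l ^ 2), ∀ x, H.gam σ (U σ) (U σ) x ≤ 1)
    (hF : ∀ σ ∈ Icc t (t + l ^ 2), ∀ x, U σ x < 2 * (k * l) → F x = 1) (x : M) :
    E.psi (U (t + l ^ 2) x / (k * l)) / (2 + K1) ≤ u (t + l ^ 2) x := by
  have hl := P.lp
  have hlt : t < t + l ^ 2 := by nlinarith
  have hs := P.st.mono hat hlt htb
  obtain ⟨sψ, dψ⟩ := heat_cut A (c := k * l) hs hU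
  have sθ : H.Sm t (t + l ^ 2) fun σ (_ : M) => (σ - t) / (l ^ 2 * (2 + K1)) :=
    A.sm_timeU (by fun_prop)
  have dθ : HasDt t (t + l ^ 2) (fun σ (_ : M) => (σ - t) / (l ^ 2 * (2 + K1)))
      fun _ _ => 1 / (l ^ 2 * (2 + K1)) :=
    HasDt.time (c' := fun _ => 1 / (l ^ 2 * (2 + K1)))
      fun σ _ => ((hasDerivAt_id σ).sub_const t).div_const _
  have key := P.sub_cmp A hat hlt htb (A.sm_mul sθ sψ) (dθ.mul dψ)
    (fun x => by simpa using P.nonneg A t ⟨hat, hlt.le.trans htb⟩ x) (fun σ hσ x => ?_)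
    (t + l ^ 2) ⟨hlt.le, le_rfl⟩ x
  · have e : (t + l ^ 2 - t) / (l ^ 2 * (2 + K1)) = 1 / (2 + K1) := by
      field_simp; ring
    rw [e] at key
    calc _ = 1 / (2 + K1) * E.psi (U (t + l ^ 2) x / (k * l)) := by ring
      _ ≤ _ := key
  · rw [A.lap_cmul (hs.mem hσ) _ (A.sm_s0 sψ σ hσ)]
    set θ := (σ - t) / (l ^ 2 * (2 + K1)) with hθ
    have hθ0 : 0 ≤ θ := div_nonneg (sub_nonneg.2 hσ.1) (by positivity)
    have hθ1 : θ ≤ 1 / (2 + K1) := by
      rw [hθ, div_le_div_iff₀ (by positivity) (by positivity)]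
      nlinarith [hσ.2]
    set s := U σ x / (k * l)
    have hkl : 0 < k * l := by positivity
    have hg0 := A.gam_nonneg σ (hs.mem hσ) (A.sm_s0 hU.1 σ hσ) x
    have hg1 := hg σ hσ x
    by_cases hc : U σ x < 2 * (k * l)
    · rw [hF σ hσ x hc]
      have h1 : |deriv (deriv E.psi) s| ≤ K1 := (hK s).trans
        (mul_le_of_le_one_right hK1 (E.chi_le_one s))
      have h2 : -(deriv (deriv E.psi) s / (k * l) ^ 2 * H.gam σ (U σ) (U σ) x) ≤ K1 / l ^ 2 := by
        have h3 : |deriv (deriv E.psi) s / (k * l) ^ 2 * H.gam σ (U σ) (U σ) x| ≤ K1 / l ^ 2 := by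
          rw [abs_mul, abs_div, abs_of_nonneg hg0, abs_of_pos (pow_pos hkl 2)]
          refine (mul_le_of_le_one_right (by positivity) hg1).trans ?_
          refine div_le_div₀ hK1 h1 (by positivity) ?_
          exact pow_le_pow_left₀ hl.le (by nlinarith) 2
        linarith [neg_abs_le (deriv (deriv E.psi) s / (k * l) ^ 2 * H.gam σ (U σ) (U σ) x)]
      have h4 := E.psi_le_one s
      have h5 := E.psi_nonneg s
      have h6 : 1 / (l ^ 2 * (2 + K1)) * E.psi s ≤ 1 / (l ^ 2 * (2 + K1)) :=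
        mul_le_of_le_one_right (by positivity) h4
      have h7 : θ * -(deriv (deriv E.psi) s / (k * l) ^ 2 * H.gam σ (U σ) (U σ) x) ≤
          1 / (2 + K1) * (K1 / l ^ 2) :=
        (mul_le_mul_of_nonneg_left h2 hθ0).trans (mul_le_mul_of_nonneg_right hθ1 (by positivity))
      have h8 : θ * E.psi s ≤ 1 / (2 + K1) := (mul_le_of_le_one_right hθ0 h4).trans hθ1
      have h9 : (1 - 1 / (2 + K1)) / l ^ 2 ≤ (1 - θ * E.psi s) / l ^ 2 :=
        div_le_div_of_nonneg_right (by linarith) (sq_nonneg l)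
      have h10 : (1 - 1 / (2 + K1)) / l ^ 2 =
          1 / (l ^ 2 * (2 + K1)) + 1 / (2 + K1) * (K1 / l ^ 2) := by field_simp; ring
      linarith
    · have h0 : 2 ≤ s := by rw [le_div_iff₀ hkl]; linarith [not_lt.1 hc]
      have h1 : deriv (deriv E.psi) s = 0 := by
        have := hK s
        rw [E.chi_zero h0, mul_zero] at this
        exact abs_nonpos_iff.1 this
      rw [h1, E.psi_zero h0]
      have := div_nonneg (P.Fn x) (sq_nonneg l)
      simp only [mul_zero, zero_div, zero_mul, sub_zero, zero_add]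
      linarith

/-- phase 2 of the lower bound -/
theorem lower2 {t θ δ : ℝ} (hat : a ≤ t) (htb : t + l ^ 2 ≤ b) {h : ℝ → M → ℝ}
    (hh : H.Heat t (t + l ^ 2) h) (hi : ∀ x, θ * (h t x - δ) ≤ u t x) (x : M) :
    θ * Real.exp (-1) * (h (t + l ^ 2) x - δ) ≤ u (t + l ^ 2) x := by
  have hl := P.lp
  have hlt : t < t + l ^ 2 := by nlinarith
  have hs := P.st.mono hat hlt htb
  have s2 : H.Sm t (t + l ^ 2) fun σ (_ : M) => θ * Real.exp (-((σ - t) / l ^ 2)) :=
    A.sm_timeU (by fun_prop)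
  have d2 : HasDt t (t + l ^ 2) (fun σ (_ : M) => θ * Real.exp (-((σ - t) / l ^ 2)))
      fun σ _ => θ * (Real.exp (-((σ - t) / l ^ 2)) * (-(1 / l ^ 2))) :=
    HasDt.time fun σ _ =>
      (((((hasDerivAt_id σ).sub_const t).div_const (l ^ 2)).neg).exp).const_mul θ
  have s3 := A.sm_sub hh.1 (A.sm_const δ)
  have key := P.sub_cmp A hat hlt htb (A.sm_mul s2 s3)
    (d2.mul (hh.2.sub (HasDt.static fun _ => δ))) (fun x => by simpa using hi x)
    (fun σ hσ x => ?_) (t + l ^ 2) ⟨hlt.le, le_rfl⟩ x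
  · have e : (t + l ^ 2 - t) / l ^ 2 = 1 := by field_simp; ring
    rwa [e] at key
  · rw [A.lap_cmul (hs.mem hσ) _ (A.sm_s0 s3 σ hσ),
      A.lap_sub (hs.mem hσ) (A.sm_s0 hh.1 σ hσ) (A.s0_const δ), A.lap_const (hs.mem hσ)]
    have := div_nonneg (P.Fn x) (sq_nonneg l)
    have e : (F x - θ * Real.exp (-((σ - t) / l ^ 2)) * (h σ x - δ)) / l ^ 2 = F x / l ^ 2 +
        θ * (Real.exp (-((σ - t) / l ^ 2)) * (-(1 / l ^ 2))) * (h σ x - δ) := by ring
    rw [e]
    linarith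

end Pot

end HC

end Crest.Agent.N207

end
end

-- ▼ part N207/E/St3
section

/-!
# Row 207, block E (static persistence, helper83): energy under a slowly moving cutoff
-/

set_option autoImplicit false
set_option linter.dupNamespace false
set_option linter.unusedSectionVars false
open Set MeasureTheory Filter Topology
open scoped ContDiff

noncomputable section

namespace Crest.Agent.N207

/-- `1` for `s ≥ 2c`, `0` for `s ≤ c` -/
def lcut (c s : ℝ) : ℝ := E.psi (3 - s / c)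

theorem lcut_cd (c : ℝ) : ContDiff ℝ ∞ (lcut c) :=
  E.psi_cd.comp (contDiff_const.sub (contDiff_id.div_const c))

theorem lcut_one {c s : ℝ} (hc : 0 < c) (h : 2 * c ≤ s) : lcut c s = 1 :=
  E.psi_one (by have : 2 ≤ s / c := (le_div_iff₀ hc).2 h
                linarith)

theorem lcut_zero {c s : ℝ} (hc : 0 < c) (h : s ≤ c) : lcut c s = 0 :=
  E.psi_zero (by have : s / c ≤ 1 := (div_le_one hc).2 h
                 linarith)

theorem lcut_d1 (c s : ℝ) : deriv (lcut c) s = -(deriv E.psi (3 - s / c) / c) := by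
  have := ((E.psi_cd.differentiable (by simp) (3 - s / c)).hasDerivAt.comp s
    (((hasDerivAt_id s).div_const c).const_sub 3)).deriv
  refine Eq.trans ?_ (this.trans ?_)
  · rfl
  · ring

theorem lcut_d2 (c s : ℝ) : deriv (deriv (lcut c)) s = deriv (deriv E.psi) (3 - s / c) / c ^ 2 := by
  rw [funext (lcut_d1 c)]
  have c1 : ContDiff ℝ ∞ (deriv E.psi) := E.psi_cd.iterate_deriv 1
  have := (((c1.differentiable (by simp) (3 - s / c)).hasDerivAt.comp s
      (((hasDerivAt_id s).div_const c).const_sub 3)).div_const c).neg.deriv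
  refine Eq.trans ?_ (this.trans ?_)
  · rfl
  · ring

theorem lcut_bounds : ∃ K, 1 ≤ K ∧ ∀ c > 0, ∀ s, |deriv (lcut c) s| ≤ K / c * √(lcut c s) ∧
    |deriv (deriv (lcut c)) s| ≤ K / c ^ 2 * √(lcut c s) := by
  obtain ⟨K, hK, k1, k2⟩ := E.psi_bounds
  refine ⟨K, hK, fun c hc s => ?_⟩
  have e : √(lcut c s) = E.chi (3 - s / c) := by
    unfold lcut; rw [E.psi_eq, Real.sqrt_sq (E.chi_nonneg _)]
  have h0 := E.chi_nonneg (3 - s / c)
  have h1 := E.chi_le_one (3 - s / c)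
  rw [e, lcut_d1, lcut_d2, abs_neg, abs_div, abs_div, abs_of_pos hc, abs_of_pos (pow_pos hc 2),
    div_mul_eq_mul_div, div_mul_eq_mul_div]
  refine ⟨div_le_div_of_nonneg_right ?_ hc.le, div_le_div_of_nonneg_right (k2 _) (sq_nonneg c)⟩
  refine abs_le_of_sq_le_sq' ((k1 _).trans ?_) (by positivity) |> abs_le.2
  rw [E.psi_eq]
  have h2 : K * E.chi (3 - s / c) ^ 2 * E.chi (3 - s / c) ≤ K * E.chi (3 - s / c) ^ 2 :=
    mul_le_of_le_one_right (by positivity) h1
  nlinarith [mul_nonneg (sub_nonneg.2 hK) (mul_nonneg (by linarith : 0 ≤ K)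
    (sq_nonneg (E.chi (3 - s / c))))]

namespace HC

variable {M : Type*} [TopologicalSpace M] [CompactSpace M] [MeasurableSpace M]
  [OpensMeasurableSpace M] {H : HC M}

/-- a function whose level sets move slowly -/
structure Mov (H : HC M) (a b l c Λ : ℝ) (u v : ℝ → M → ℝ) : Prop where
  st : H.St a b
  sm : H.Sm a b u
  dt : HasDt a b u v
  bv : ∀ t ∈ Icc a b, ∀ x, |v t x| ≤ Λ / l ^ 2
  bl : ∀ t ∈ Icc a b, ∀ x, |H.lap t (u t) x| ≤ Λ / l ^ 2
  bg : ∀ t ∈ Icc a b, ∀ x, H.gam t (u t) (u t) x ≤ Λ / l ^ 2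
  vol : ∀ t ∈ Icc a b, (H.vol t).real {x | c < u t x} ≤ Λ * l ^ 4

theorem Mov.cutf {K : ℝ} (hK : 1 ≤ K) (hb : ∀ c > 0, ∀ s, |deriv (lcut c) s| ≤ K / c * √(lcut c s) ∧
    |deriv (deriv (lcut c)) s| ≤ K / c ^ 2 * √(lcut c s)) (h : H.Ok) {a b l c Λ : ℝ}
    {u v : ℝ → M → ℝ} (m : H.Mov a b l c Λ u v) (hl : 0 < l) (hc : 0 < c) (hΛ : 1 ≤ Λ) :
    H.Cutf a b l (Λ * (1 + K / c + K ^ 2 / c ^ 2)) (fun t x => lcut c (u t x))
      fun t x => deriv (lcut c) (u t x) * v t x := by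
  have A := h.alg
  have p1 : 0 ≤ K / c := by positivity
  have p2 : K / c ^ 2 ≤ K ^ 2 / c ^ 2 := div_le_div_of_nonneg_right (by nlinarith) (sq_nonneg c)
  have p3 : 0 ≤ K / c ^ 2 := by positivity
  have p4 : 0 ≤ Λ / l ^ 2 := by positivity
  have e : Λ * (1 + K / c + K ^ 2 / c ^ 2) / l ^ 2 = Λ / l ^ 2 * (1 + K / c + K ^ 2 / c ^ 2) := by
    ring
  refine ⟨A.sm_compU (lcut_cd c) m.sm, HasDt.comp isOpen_univ (lcut_cd c).contDiffOn
    (fun _ _ _ => mem_univ _) m.dt, fun t _ x => E.psi_nonneg _, fun t _ x => E.psi_le_one _,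
    fun t ht x => ?_, fun t ht x => ?_, fun t ht x => ?_, fun t ht => ?_⟩
  · have q := Real.sqrt_nonneg (lcut c (u t x))
    rw [abs_mul, e]
    refine (mul_le_mul (hb c hc _).1 (m.bv t ht x) (abs_nonneg _) (by positivity)).trans ?_
    nlinarith [mul_nonneg p4 q, mul_nonneg (mul_nonneg p4 q) (p3.trans p2)]
  · have q := Real.sqrt_nonneg (lcut c (u t x))
    have hT := m.st.mem ht
    have g0 := A.gam_nonneg t hT (A.sm_s0 m.sm t ht) x
    rw [A.lap_compU hT (lcut_cd c) (A.sm_s0 m.sm t ht), e]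
    refine (abs_add_le _ _).trans ?_
    rw [abs_mul, abs_mul, abs_of_nonneg g0]
    have k1 := mul_le_mul (hb c hc (u t x)).1 (m.bl t ht x) (abs_nonneg _) (by positivity)
    have k2 := mul_le_mul (hb c hc (u t x)).2 (m.bg t ht x) g0 (by positivity)
    nlinarith [mul_nonneg p4 q, mul_le_mul_of_nonneg_left p2 (mul_nonneg p4 q)]
  · have hT := m.st.mem ht
    have g0 := A.gam_nonneg t hT (A.sm_s0 m.sm t ht) x
    have q : 0 ≤ lcut c (u t x) := E.psi_nonneg _
    rw [A.gam_compU2 hT (lcut_cd c) (A.sm_s0 m.sm t ht), e]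
    have k1 : deriv (lcut c) (u t x) ^ 2 ≤ K ^ 2 / c ^ 2 * lcut c (u t x) := by
      have := pow_le_pow_left₀ (abs_nonneg _) (hb c hc (u t x)).1 2
      rwa [sq_abs, mul_pow, Real.sq_sqrt q, div_pow] at this
    have k2 := mul_le_mul k1 (m.bg t ht x) g0 (by positivity)
    nlinarith [mul_nonneg p4 q, mul_nonneg (mul_nonneg p4 q) p1]
  · have := h.int.fin t (m.st.mem ht)
    refine le_trans (measureReal_mono fun x hx => ?_) ((m.vol t ht).trans ?_)
    · by_contra hn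
      exact hx (lcut_zero hc (not_lt.1 hn))
    · refine mul_le_mul_of_nonneg_right ?_ (by positivity)
      nlinarith [p3.trans p2]

/-- the energy seen by a slowly moving cutoff -/
theorem en_move (h : H.Ok) (hD : H.DOut) {t0 c : ℝ} (h0 : 0 < t0) (hc : 0 < c) :
    ∃ C1, 0 < C1 ∧ ∀ Λ ≥ 1, ∃ C2, 0 < C2 ∧ ∀ {a b l : ℝ} {u v : ℝ → M → ℝ} {β : ℝ → ℝ},
      t0 ≤ a → 0 < l → l ≤ 1 → H.Mov a b l c Λ u v → ContinuousOn β (Icc a b) →
      (∀ t ∈ Icc a b, 0 ≤ β t) → (∀ t ∈ Icc a b, ∀ x, |v t x| ≤ β t) → ∀ s t : ℝ, a + l ^ 2 ≤ s → s ≤ t → t ≤ b →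
      ∫ x, lcut (2 * c) (u t x) * H.N 0 t x ∂H.vol t ≤
        ∫ x, lcut (2 * c) (u s x) * H.N 0 s x ∂H.vol s + C1 * (∫ σ in s..t, β σ) +
          C2 * ((t - s) / l + l) := by
  have A := h.alg
  have I := h.int
  obtain ⟨K, hK, hb⟩ := lcut_bounds
  obtain ⟨En, hEn, hN, -⟩ := hD.glob t0 h0
  obtain ⟨Cf, hCf, hF⟩ := hD.flux
  refine ⟨K / (2 * c) * 16 * En, by positivity, fun Λ hΛ => ?_⟩
  have hL : 1 ≤ Λ * (1 + K / c + K ^ 2 / c ^ 2) := by
    have : 0 ≤ K / c + K ^ 2 / c ^ 2 := by positivity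
    nlinarith
  obtain ⟨Cd, hCd, hQ⟩ := hD.loc t0 h0 _ hL
  set κ := Cf * (K / (2 * c) * √Λ) with hκ
  have hκ0 : 0 < κ := by positivity
  refine ⟨κ * (En + Cd) + 4 * Cd, by positivity,
    fun {a b l u v β} ha hl hl1 m cβ hβ0 hβ s t k1 k2 k3 => ?_⟩
  have hs := m.st
  have k0 : a ≤ s := by nlinarith [sq_nonneg l]
  have sub : Icc s t ⊆ Icc a b := Icc_subset_Icc k0 k3
  have hψ := m.cutf hK hb h hl hc hΛ
  have k4 : a + l ^ 2 / (Λ * (1 + K / c + K ^ 2 / c ^ 2)) ≤ s := by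
    have : l ^ 2 / (Λ * (1 + K / c + K ^ 2 / c ^ 2)) ≤ l ^ 2 := div_le_self (sq_nonneg l) hL
    linarith
  obtain ⟨q1, q2⟩ := hQ ha hs hl hl1 hψ s t k4 k2 k3
  have hc2 : 0 < 2 * c := by positivity
  have sχ : H.Sm a b fun t x => lcut (2 * c) (u t x) := A.sm_compU (lcut_cd _) m.sm
  have dχ : HasDt a b (fun t x => lcut (2 * c) (u t x))
      fun t x => deriv (lcut (2 * c)) (u t x) * v t x :=
    HasDt.comp isOpen_univ (lcut_cd _).contDiffOn (fun _ _ _ => mem_univ _) m.dt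
  have f1 := (abs_le.1 (hF hs sχ dχ s t k0 k2 k3)).2
  have ap := D.ap_flux A h.evo hs Cf sχ dχ
  have sJ : H.Sm a b fun σ x => lcut c (u σ x) * (H.Q 0 σ x ^ 2 + H.Q 1 σ x) :=
    A.sm_mul hψ.sm (A.sm_add (A.sm_pow 2 (A.sm_Q 0 hs)) (A.sm_Q 1 hs))
  have cJ := (A.int_cont I hs sJ).mono sub
  have cβ' := cβ.mono sub
  have χψ : ∀ y : ℝ, lcut (2 * c) y ≤ lcut c y ∧ √(lcut (2 * c) y) ≤ lcut c y := fun y => by
    by_cases hy : y ≤ 2 * c
    · rw [lcut_zero hc2 hy, Real.sqrt_zero]; exact ⟨E.psi_nonneg _, E.psi_nonneg _⟩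
    · rw [lcut_one hc (not_le.1 hy).le]
      exact ⟨E.psi_le_one _, Real.sqrt_le_one.2 (E.psi_le_one _)⟩
  -- the pointwise in time bound of the flux
  have f2 : ∀ σ ∈ Icc s t, ∫ x, (|deriv (lcut (2 * c)) (u σ x) * v σ x| * |H.Pf σ x| +
      Cf * (√(H.gam σ (fun x => lcut (2 * c) (u σ x)) (fun x => lcut (2 * c) (u σ x)) x) *
        √(H.N 0 σ x) * √(H.Q 1 σ x))) ∂H.vol σ ≤ K / (2 * c) * 16 * En * β σ + κ / l * En +
      κ / l * ∫ x, lcut c (u σ x) * (H.Q 0 σ x ^ 2 + H.Q 1 σ x) ∂H.vol σ := by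
    intro σ hσ
    have hσ' := sub hσ
    have hT := hs.mem hσ'
    have β0 : 0 ≤ β σ := hβ0 σ hσ'
    have iN := A.integrable I hT (A.s0_N hT 0)
    have k5 := D.int_comb (K / (2 * c) * 16 * β σ) (κ / l) (κ / l) 0
      (A.integrable_cont I hT (ap.cont A hσ')) iN iN (A.integrable I hT (A.sm_s0 sJ σ hσ')) iN
      fun x => by
        have n0 := h.evo.N_nonneg 0 σ hT x
        have n1 := h.evo.Q_nonneg 1 σ hT x
        have u0 := A.sm_s0 m.sm σ hσ'
        have g0 := A.gam_nonneg σ hT u0 x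
        have r1 := (hb _ hc2 (u σ x)).1
        have r2 := (χψ (u σ x)).2
        have ψ1 : lcut c (u σ x) ≤ 1 := E.psi_le_one _
        have ψ0 : 0 ≤ lcut c (u σ x) := E.psi_nonneg _
        have r3 : |deriv (lcut (2 * c)) (u σ x)| ≤ K / (2 * c) * lcut c (u σ x) :=
          r1.trans (mul_le_mul_of_nonneg_left r2 (by positivity))
        have r4 : |deriv (lcut (2 * c)) (u σ x)| ≤ K / (2 * c) :=
          r3.trans (mul_le_of_le_one_right (by positivity) ψ1)
        have t1 : |deriv (lcut (2 * c)) (u σ x) * v σ x| * |H.Pf σ x| ≤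
            K / (2 * c) * 16 * β σ * H.N 0 σ x := by
          rw [abs_mul]
          have := mul_le_mul (mul_le_mul r4 (hβ σ hσ' x) (abs_nonneg _) (by positivity))
            (D.abs_Pf_le h.evo hT x) (abs_nonneg _) (mul_nonneg (by positivity) β0)
          linarith
        have t2 : √(H.gam σ (fun x => lcut (2 * c) (u σ x)) (fun x => lcut (2 * c) (u σ x)) x) ≤
            K / (2 * c) * lcut c (u σ x) * (√Λ / l) := by
          rw [A.gam_compU2 hT (lcut_cd _) u0, Real.sqrt_mul (sq_nonneg _), Real.sqrt_sq_eq_abs]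
          refine mul_le_mul r3 ?_ (Real.sqrt_nonneg _) (by positivity)
          refine (Real.sqrt_le_sqrt (m.bg σ hσ' x)).trans ?_
          rw [Real.sqrt_div (by linarith), Real.sqrt_sq hl.le]
        have t3 : √(H.N 0 σ x) * √(H.Q 1 σ x) ≤ H.N 0 σ x + H.Q 1 σ x := by
          nlinarith [Real.sq_sqrt n0, Real.sq_sqrt n1, sq_nonneg (√(H.N 0 σ x) - √(H.Q 1 σ x)),
            Real.sqrt_nonneg (H.N 0 σ x), Real.sqrt_nonneg (H.Q 1 σ x)]
        have t4 := mul_le_mul t2 t3 (by positivity) (by positivity)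
        have t5 : Cf * (K / (2 * c) * lcut c (u σ x) * (√Λ / l) * (H.N 0 σ x + H.Q 1 σ x)) =
            κ / l * (lcut c (u σ x) * H.N 0 σ x + lcut c (u σ x) * H.Q 1 σ x) := by
          rw [hκ]; ring
        have t6 : lcut c (u σ x) * H.N 0 σ x + lcut c (u σ x) * H.Q 1 σ x ≤
            H.N 0 σ x + lcut c (u σ x) * (H.Q 0 σ x ^ 2 + H.Q 1 σ x) := by
          nlinarith [mul_nonneg ψ0 (sq_nonneg (H.Q 0 σ x))]
        have t7 := mul_le_mul_of_nonneg_left t6 (div_nonneg hκ0.le hl.le)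
        have t8 := mul_le_mul_of_nonneg_left t4 hCf.le
        rw [← mul_assoc (√_) (√_)] at t8
        linarith
    have k6 := hN σ ⟨ha.trans hσ'.1, hT.2⟩
    have k7 := mul_le_mul_of_nonneg_left k6 (show 0 ≤ K / (2 * c) * 16 * β σ from
      mul_nonneg (by positivity) β0)
    have k8 := mul_le_mul_of_nonneg_left k6 (div_nonneg hκ0.le hl.le)
    nlinarith
  have iβ : IntervalIntegrable β volume s t := cβ'.intervalIntegrable_of_Icc k2
  have iJ := cJ.intervalIntegrable_of_Icc (μ := volume) k2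
  have f3 := intervalIntegral.integral_mono_on k2
    (((ap.int_cont A I hs).mono sub).intervalIntegrable_of_Icc k2)
    (((iβ.const_mul (K / (2 * c) * 16 * En)).add (intervalIntegrable_const (c := κ / l * En))).add
      (iJ.const_mul (κ / l))) f2
  rw [intervalIntegral.integral_add ((iβ.const_mul _).add intervalIntegrable_const)
    (iJ.const_mul _), intervalIntegral.integral_add (iβ.const_mul _) intervalIntegrable_const,
    intervalIntegral.integral_const_mul, intervalIntegral.integral_const_mul,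
    intervalIntegral.integral_const_mul, intervalIntegral.integral_const, smul_eq_mul] at f3
  have htm : t ∈ Icc a b := ⟨k0.trans k2, k3⟩
  have hsm : s ∈ Icc a b := ⟨k0, k2.trans k3⟩
  have hT := hs.mem htm
  have hS := hs.mem hsm
  have iP := fun σ (hσ : σ ∈ Icc a b) =>
    A.integrable I (hs.mem hσ) (A.sm_s0 (A.sm_mul sχ (A.sm_Pf hs)) σ hσ)
  have iN := fun σ (hσ : σ ∈ Icc a b) =>
    A.integrable I (hs.mem hσ) (A.sm_s0 (A.sm_mul sχ (A.sm_N 0 hs)) σ hσ)
  have iQ := A.integrable I hT (A.sm_s0 (A.sm_mul hψ.sm (A.sm_Q 0 hs)) t htm)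
  have f4 := D.int_comb 1 4 0 0 (iN t htm) (iP t htm) iQ iQ iQ fun x => by
    have := mul_le_mul_of_nonneg_left (D.N_le_Pf (H := H) t x)
      (show 0 ≤ lcut (2 * c) (u t x) from E.psi_nonneg _)
    have := mul_le_mul_of_nonneg_right (χψ (u t x)).1 (h.evo.Q_nonneg 0 t hT x)
    nlinarith
  have f5 := integral_mono (iP s hsm) (iN s hsm) fun x =>
    mul_le_mul_of_nonneg_left (D.Pf_le h.evo hS x) (E.psi_nonneg _)
  have f6 := mul_le_mul_of_nonneg_left q2 (div_nonneg hκ0.le hl.le)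
  have f7 : κ / l * (Cd * (t - s + l ^ 2)) = κ * Cd * ((t - s) / l + l) := by field_simp
  have f8 : κ / l * ((t - s) * En) ≤ κ * En * ((t - s) / l + l) := by
    have : κ / l * ((t - s) * En) = κ * En * ((t - s) / l) := by ring
    rw [this]
    exact mul_le_mul_of_nonneg_left (by linarith) (by positivity)
  have f9 : Cd * l ^ 2 ≤ Cd * ((t - s) / l + l) := by
    refine mul_le_mul_of_nonneg_left ?_ hCd.le
    have := div_nonneg (sub_nonneg.2 k2) hl.le
    nlinarith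
  have f10 := f1.trans f3
  have f11 : (κ * (En + Cd) + 4 * Cd) * ((t - s) / l + l) = κ * En * ((t - s) / l + l) +
      κ * Cd * ((t - s) / l + l) + 4 * (Cd * ((t - s) / l + l)) := by ring
  rw [f11]
  simp only [one_mul, zero_mul, add_zero] at f4
  have f12 := f4.trans (add_le_add le_rfl (mul_le_mul_of_nonneg_left q1 (by norm_num)))
  have f13 := (sub_le_iff_le_add.1 f10).trans (add_le_add le_rfl f5)
  linarith

end HC

end Crest.Agent.N207

end
end

-- ▼ part N207/E/St4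
section

/-!
# Row 207, block E (static persistence, helper83): the potential attached to a ball
-/

set_option autoImplicit false
set_option linter.dupNamespace false
set_option linter.unusedSectionVars false
open Set MeasureTheory Filter Topology
open scoped ContDiff

noncomputable section

namespace Crest.Agent.N207

namespace HC

variable {M : Type*} [TopologicalSpace M] [CompactSpace M] [MeasurableSpace M]
  [OpensMeasurableSpace M] {H : HC M}

/-- the lower bound for the potential near the source -/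
theorem Pot.lower (h : H.Ok) {a b l : ℝ} {F : M → ℝ} {u : ℝ → M → ℝ} (P : H.Pot a b l F u)
    {K1 k t Dd : ℝ} (hK : ∀ s, |deriv (deriv E.psi) s| ≤ K1 * E.chi s) (hK1 : 0 ≤ K1)
    (hk : 1 ≤ k) (hk2 : 2 * K1 ≤ k) (hD : 0 ≤ Dd) (hat : a ≤ t) (htb : t + l ^ 2 + l ^ 2 ≤ b)
    {U : ℝ → M → ℝ} (hU : H.Heat t (t + l ^ 2 + l ^ 2) U)
    (hg : ∀ σ ∈ Icc t (t + l ^ 2 + l ^ 2), ∀ x, H.gam σ (U σ) (U σ) x ≤ 1)
    (hF : ∀ σ ∈ Icc t (t + l ^ 2), ∀ x, U σ x < 2 * (k * l) → F x = 1) {x y : M}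
    (hx : U (t + l ^ 2 + l ^ 2) x ≤ k * l) (hy : H.d (t + l ^ 2 + l ^ 2) x y ≤ Dd * l) :
    1 / (2 + K1) * Real.exp (-1) * (Real.exp (-(2 + Dd / 2) ^ 2) / 2) ≤
      u (t + l ^ 2 + l ^ 2) y := by
  have A := h.alg
  have hl := P.lp
  have l2 : 0 < l ^ 2 := by positivity
  have hkl : 0 < k * l := by positivity
  set t' := t + l ^ 2 with ht'
  set δ := Real.exp (-(2 + Dd / 2) ^ 2) / 2 with hδ
  have hδ0 : 0 < δ := by positivity
  have hδ1 : δ ≤ 1 := by
    have : Real.exp (-(2 + Dd / 2) ^ 2) ≤ 1 := Real.exp_le_one_iff.2 (by nlinarith)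
    linarith
  have hs : H.St t' (t' + l ^ 2) := P.st.mono (by linarith) (by linarith) htb
  have hU' := A.heat_mono hU (show t ≤ t' by linarith) le_rfl
  obtain ⟨sψ, dψ⟩ := heat_cut A (c := k * l) hs hU'
  have m0 : t' ∈ Icc t' (t' + l ^ 2) := ⟨le_rfl, by linarith⟩
  have m1 : t' + l ^ 2 ∈ Icc t' (t' + l ^ 2) := ⟨by linarith, le_rfl⟩
  obtain ⟨g, hg1, hg2⟩ := h.solv.heat hs (A.s0_add (A.sm_s0 sψ t' m0) (A.s0_const δ))
  have gp : ∀ σ ∈ Icc t' (t' + l ^ 2), ∀ z, 0 < g σ z := fun σ hσ z =>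
    hδ0.trans_le (A.heat_ge hs hg1 (m := δ) (fun z => by
      rw [hg2]; linarith [E.psi_nonneg (U t' z / (k * l))]) σ hσ z)
  have g2 : ∀ z, g t' z ≤ 2 := fun z => by
    rw [hg2]; linarith [E.psi_le_one (U t' z / (k * l))]
  have gx : 1 / 2 ≤ g (t' + l ^ 2) x := by
    have k1 := A.sub_le hs (A.sm_sub sψ hg1.1) (dψ.sub hg1.2) (m := 0) (c := K1 / (k * l) ^ 2)
      (fun z => by rw [hg2]; linarith) (fun σ hσ z => ?_) _ m1 x
    · rw [E.psi_one ((div_le_one hkl).2 hx)] at k1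
      have : K1 / (k * l) ^ 2 * (t' + l ^ 2 - t') ≤ 1 / 2 := by
        have e : K1 / (k * l) ^ 2 * (t' + l ^ 2 - t') = K1 / k ^ 2 := by field_simp; ring
        rw [e, div_le_div_iff₀ (by positivity) (by norm_num)]
        nlinarith
      linarith
    · have hm : σ ∈ Icc t' (t' + l ^ 2) := Ioc_subset_Icc_self hσ
      rw [A.lap_sub (hs.mem hm) (A.sm_s0 sψ σ hm) (A.sm_s0 hg1.1 σ hm)]
      have hg0 := A.gam_nonneg σ (hs.mem hm) (A.sm_s0 hU'.1 σ hm) z
      have hg3 := hg σ ⟨by linarith [hm.1], hm.2⟩ z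
      have h1 : |deriv (deriv E.psi) (U σ z / (k * l))| ≤ K1 := (hK _).trans
        (mul_le_of_le_one_right hK1 (E.chi_le_one _))
      have h3 : |deriv (deriv E.psi) (U σ z / (k * l)) / (k * l) ^ 2 * H.gam σ (U σ) (U σ) z| ≤
          K1 / (k * l) ^ 2 := by
        rw [abs_mul, abs_div, abs_of_nonneg hg0, abs_of_pos (pow_pos hkl 2)]
        exact (mul_le_of_le_one_right (by positivity) hg3).trans
          (div_le_div_of_nonneg_right h1 (sq_nonneg _))
      linarith [(abs_le.1 h3).1]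
  have gy : 2 * δ ≤ g (t' + l ^ 2) y := by
    have k1 := A.harnack h.evo h.dist hs hg1 gp g2 (t := t' + l ^ 2) ⟨by linarith, le_rfl⟩ x y
    have e : √(t' + l ^ 2 - t') = l := by
      rw [add_sub_cancel_left, Real.sqrt_sq hl.le]
    rw [e] at k1
    have l1 : Real.log 2 ≤ 1 := by linarith [Real.log_two_lt_d9]
    have l0 : 0 ≤ Real.log 2 := Real.log_nonneg (by norm_num)
    have k2 : -Real.log 2 ≤ Real.log (g (t' + l ^ 2) x) := by
      rw [← Real.log_inv]; exact Real.log_le_log (by norm_num) (by linarith)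
    have k3 : √(1 + Real.log 2 - Real.log (g (t' + l ^ 2) x)) ≤ 2 :=
      Real.sqrt_le_iff.2 ⟨by norm_num, by linarith⟩
    have k4 : H.d (t' + l ^ 2) x y / (2 * l) ≤ Dd / 2 := by
      rw [div_le_div_iff₀ (by positivity) (by norm_num)]; nlinarith
    have k5 : 1 + Real.log 2 - Real.log (g (t' + l ^ 2) y) ≤ (2 + Dd / 2) ^ 2 :=
      (Real.sqrt_le_iff.1 (show √(1 + Real.log 2 - Real.log (g (t' + l ^ 2) y)) ≤ 2 + Dd / 2 by
        linarith)).2
    have k6 := (Real.le_log_iff_exp_le (gp _ m1 y)).1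
      (show -(2 + Dd / 2) ^ 2 ≤ Real.log (g (t' + l ^ 2) y) by linarith)
    linarith
  have k7 := P.lower2 A (t := t') (θ := 1 / (2 + K1)) (δ := δ) (by linarith) htb hg1 (fun z => by
    have := P.lower1 A hK hK1 hk hat (by linarith) (A.heat_mono hU le_rfl (by linarith))
      (fun σ hσ => hg σ ⟨hσ.1, by linarith [hσ.2]⟩) hF z
    rw [hg2]
    calc _ = E.psi (U t' z / (k * l)) / (2 + K1) := by ring
      _ ≤ _ := this) y
  refine le_trans (mul_le_mul_of_nonneg_left (by linarith) (by positivity)) k7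

theorem sqrt_mul_sq_le {L l s : ℝ} (hL : 1 ≤ L) (hl : 0 < l) (h : s ≤ L * l ^ 2) : √s ≤ L * l :=
  Real.sqrt_le_iff.2 ⟨by positivity, h.trans (by nlinarith [mul_nonneg (sub_nonneg.2 hL) (mul_nonneg (by linarith : 0 ≤ L) (sq_nonneg l))])⟩

/-- the potential attached to the ball of radius `~ l` around `x` at time `t` -/
theorem exists_setup (h : H.Ok) (S2 : H.Solv2) (hC : H.COut) {t0 : ℝ} (h0 : 0 < t0) :
    ∃ p K1 c : ℝ, 0 < p ∧ 1 ≤ K1 ∧ 0 < c ∧ c ≤ 1 ∧ ∀ L ≥ 1, ∃ C', 0 < C' ∧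
      ∀ {t l b : ℝ} (x : M), 0 < l → t0 ≤ t - L * l ^ 2 → t + l ^ 2 + l ^ 2 ≤ b → b < H.T →
      ∃ F u, H.Pot (t - L * l ^ 2) b l F u ∧
        (∀ σ ∈ Ioo 0 H.T, ∀ y, p * l ≤ H.d t x y → H.gam σ F F y = 0) ∧
        (∀ y, H.gam t F F y ≤ K1 / l ^ 2) ∧
        (∀ y, H.d t x y < p * l → 8 * c ≤ u (t + l ^ 2 + l ^ 2) y) ∧
        (∀ y, c / 2 < u t y → H.d (t - L * l ^ 2) x y < C' * l) := by
  have A := h.alg
  obtain ⟨K1, hK1, k1, k2⟩ := E.psi_bounds
  obtain ⟨CL, hCL, hlip⟩ := A.exists_lipheat h.evo h.solv h.dist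
  obtain ⟨Cd, hCd, hlo⟩ := hC.dlo
  obtain ⟨Au, hAu, hup⟩ := hC.dup t0 h0
  set k := 1 + 2 * K1 + 2 * CL with hk
  set p := 2 * k + CL with hp
  have hk1 : 1 ≤ k := by linarith
  have hp1 : 1 ≤ p := by linarith
  set Dd := Au * (2 * p + 3) with hDd
  set c1 := 1 / (2 + K1) * Real.exp (-1) * (Real.exp (-(2 + Dd / 2) ^ 2) / 2) with hc1
  have c10 : 0 < c1 := by positivity
  refine ⟨2 * p + 1, K1, min 1 (c1 / 8), by positivity, hK1, by positivity, min_le_left _ _,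
    fun L hL => ?_⟩
  set c := min 1 (c1 / 8) with hc
  have c0 : 0 < c := by positivity
  have c8 : 8 * c ≤ c1 := by linarith [min_le_right 1 (c1 / 8)]
  refine ⟨2 * p + 3 + (Cd + 2 * CL) * L + 8 / c, by positivity,
    fun {t l b} x hl ha hb hbT => ?_⟩
  have l2 : 0 < l ^ 2 := by positivity
  have hLl : 0 < L * l ^ 2 := by positivity
  set a := t - L * l ^ 2 with ha'
  have hat : a < t := by linarith
  have hs : H.St a b := ⟨by linarith, by linarith, hbT⟩
  have hs1 : H.St t (t + l ^ 2 + l ^ 2) := hs.mono hat.le (by linarith) hb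
  have hs2 : H.St a t := hs.mono le_rfl hat (by linarith)
  have mt : t ∈ Icc t (t + l ^ 2 + l ^ 2) := ⟨le_rfl, by linarith⟩
  have mt' : t + l ^ 2 + l ^ 2 ∈ Icc t (t + l ^ 2 + l ^ 2) := ⟨by linarith, le_rfl⟩
  have hT := hs1.mem mt
  obtain ⟨U, hU, gU, -, mU, dU, -⟩ := hlip hs1 x l hl
  obtain ⟨W, hW, gW, -, -, dW, -⟩ := hlip hs2 x l hl
  have U0 := A.sm_s0 hU.1 t mt
  have hpl : 0 < p * l := by positivity
  have d0 : ∀ y, |U t y - H.d t x y| ≤ l := fun y => by simpa using dU t mt y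
  have F0 : H.S0 fun y => E.psi (U t y / (p * l)) :=
    A.s0_compU (φ := fun s => E.psi (s / (p * l))) (psi_scale_cd _) U0
  have gF : ∀ σ ∈ Ioo 0 H.T, ∀ y, H.gam σ (fun y => E.psi (U t y / (p * l)))
      (fun y => E.psi (U t y / (p * l))) y =
      (deriv E.psi (U t y / (p * l)) / (p * l)) ^ 2 * H.gam σ (U t) (U t) y := fun σ hσ y => by
    rw [A.gam_compU2 (φ := fun s => E.psi (s / (p * l))) hσ (psi_scale_cd _) U0, (psi_scale _).1]
  have far : ∀ y, (2 * p + 1) * l ≤ H.d t x y → 2 ≤ U t y / (p * l) := fun y hy => by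
    rw [le_div_iff₀ hpl]; linarith [(abs_le.1 (d0 y)).1]
  obtain ⟨u, P⟩ := exists_pot A S2 hs hl F0 (fun _ => E.psi_nonneg _) fun _ => E.psi_le_one _
  refine ⟨_, u, P, fun σ hσ y hy => ?_, fun y => ?_, fun y hy => c8.trans ?_, fun y hy => ?_⟩
  · have := k1 (U t y / (p * l))
    rw [E.psi_zero (far y hy), mul_zero, zero_mul] at this
    rw [gF σ hσ, pow_eq_zero_iff two_ne_zero |>.1 (le_antisymm this (sq_nonneg _))]
    simp
  · rw [gF t hT, div_pow]
    refine (mul_le_of_le_one_right (by positivity) (gU t mt y)).trans ?_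
    have q1 := E.psi_le_one (U t y / (p * l))
    have q2 := E.chi_le_one (U t y / (p * l))
    have q3 := E.psi_nonneg (U t y / (p * l))
    have q4 := E.chi_nonneg (U t y / (p * l))
    refine div_le_div₀ (by linarith) ((k1 _).trans ?_) l2 (pow_le_pow_left₀ hl.le (by nlinarith) 2)
    exact (mul_le_of_le_one_right (by positivity) q2).trans
      (mul_le_of_le_one_right (by linarith) q1)
  · have s2 : √(t + l ^ 2 + l ^ 2 - t) ≤ 2 * l := sqrt_mul_sq_le (by norm_num) hl (by linarith)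
    refine P.lower h k2 (by linarith) hk1 (by linarith) (by positivity) hat.le hb hU gU
      (fun σ hσ z hz => E.psi_one ?_) (x := x) ?_ ?_
    · rw [div_le_one hpl]
      have q1 := (abs_le.1 (mU t mt σ ⟨hσ.1, by linarith [hσ.2]⟩ hσ.1 z)).1
      have q2 : √(σ - t) ≤ 1 * l := sqrt_mul_sq_le le_rfl hl (by linarith [hσ.2])
      nlinarith [mul_le_mul_of_nonneg_left q2 hCL.le]
    · have q1 := (abs_le.1 (dU _ mt' x)).2
      rw [h.dist.self t hT] at q1
      nlinarith [mul_le_mul_of_nonneg_left s2 hCL.le]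
    · refine (hup t _ (by linarith) (by linarith) (hs1.mem mt').2 x y).trans ?_
      rw [hDd, mul_assoc]
      exact mul_le_mul_of_nonneg_left (by linarith) hAu.le
  · have mt2 : t ∈ Icc a t := ⟨hat.le, le_rfl⟩
    have sq : ∀ σ ∈ Icc a t, √(σ - a) ≤ L * l := fun σ hσ =>
      sqrt_mul_sq_le hL hl (by linarith [hσ.2])
    have q1 := P.upper A (ρ := (2 * p + 2 + (Cd + CL) * L) * l) hat (by linarith) hW gW
      (fun σ hσ z hz => ?_) t mt2 y
    · have q2 : c / 4 < Real.exp (((2 * p + 2 + (Cd + CL) * L) * l - W t y) / (2 * l)) := by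
        linarith
      have q3 := (Real.log_lt_iff_lt_exp (by positivity)).2 q2
      have q4 : -(4 / c) ≤ Real.log (c / 4) := by
        have := Real.log_le_self (show 0 ≤ (c / 4)⁻¹ by positivity)
        rw [Real.log_inv, inv_div] at this
        linarith
      have q5 := (lt_div_iff₀ (show 0 < 2 * l by positivity)).1 (q4.trans_lt q3)
      have q6 := (abs_le.1 (dW t mt2 y)).1
      have q7 := mul_le_mul_of_nonneg_left (sq t mt2) hCL.le
      have e : (2 * p + 3 + (Cd + 2 * CL) * L + 8 / c) * l =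
          (2 * p + 2 + (Cd + CL) * L) * l + 4 / c * (2 * l) + l + CL * (L * l) := by ring
      rw [e]
      linarith
    · have q2 : H.d t x z < (2 * p + 1) * l := by
        by_contra hn
        exact hz (E.psi_zero (far z (not_lt.1 hn)))
      have q3 := hlo a t hs.1 hat.le hT.2 x z
      have q4 := (abs_le.1 (dW σ hσ z)).2
      have q5 := mul_le_mul_of_nonneg_left (sq σ hσ) hCL.le
      have q6 := mul_le_mul_of_nonneg_left (sq t mt2) hCd.le
      have e : (2 * p + 2 + (Cd + CL) * L) * l =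
          (2 * p + 1) * l + l + Cd * (L * l) + CL * (L * l) := by ring
      rw [e]
      linarith

end HC

end Crest.Agent.N207

end
end

-- ▼ part N207/E/St5
section

/-!
# Row 207, block E (helper83): a regular scale `r` persists forward for a time `c r`
-/

set_option autoImplicit false
set_option linter.dupNamespace false
set_option linter.unusedSectionVars false
open Set MeasureTheory Filter Topology
open scoped ContDiff

noncomputable section

namespace Crest.Agent.N207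

theorem int_speed {a l g s t : ℝ} (hst : s ≤ t) :
    ∫ σ in s..t, (Real.exp (-((σ - a) / l ^ 2)) / l ^ 2 + g / l) ≤
      Real.exp (-((s - a) / l ^ 2)) + g / l * (t - s) := by
  have := D.int_le_of_deriv (φ := fun σ => Real.exp (-((σ - a) / l ^ 2))) (c := g / l)
    (φ' := fun σ => Real.exp (-((σ - a) / l ^ 2)) * (-(1 / l ^ 2)))
    (g := fun σ => Real.exp (-((σ - a) / l ^ 2)) / l ^ 2 + g / l) hst
    (fun σ _ => ((((hasDerivAt_id σ).sub_const a).div_const (l ^ 2)).neg).exp.hasDerivWithinAt)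
    (by fun_prop) fun σ _ => le_of_eq (by ring)
  linarith [Real.exp_pos (-((t - a) / l ^ 2))]

namespace HC

variable {M : Type*} [TopologicalSpace M] [CompactSpace M] [MeasurableSpace M]
  [OpensMeasurableSpace M] {H : HC M}

theorem vol_real_le_st (I : H.Intg) {K : ℝ} (hK0 : 0 ≤ K) (hK : ∀ t ∈ Ioo 0 H.T, ∀ x, |H.R t x| ≤ K)
    {s t : ℝ} (hs : s ∈ Ioo 0 H.T) (ht : t ∈ Ioo 0 H.T) (S : Set M) :
    (H.vol t).real S ≤ Real.exp (K * H.T) * (H.vol s).real S := by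
  have := I.fin s hs
  have h1 := I.vol_le hK s hs t ht S
  rw [Measure.smul_apply, smul_eq_mul] at h1
  have h2 := ENNReal.toReal_mono (ENNReal.mul_ne_top ENNReal.ofReal_ne_top (measure_ne_top _ _)) h1
  rw [ENNReal.toReal_mul, ENNReal.toReal_ofReal (Real.exp_pos _).le] at h2
  refine h2.trans (mul_le_mul_of_nonneg_right (Real.exp_le_exp.2
    (mul_le_mul_of_nonneg_left ?_ hK0)) ENNReal.toReal_nonneg)
  rw [abs_le]; constructor <;> linarith [hs.1, hs.2, ht.1, ht.2]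

/-- the core estimate: as long as the source stays Lipschitz, the energy stays small -/
theorem stat_core (h : H.Ok) {K G c η L Λ V C' C1 C2 c' ε0 n0 t l b' : ℝ} {x : M} {F : M → ℝ}
    {u : ℝ → M → ℝ} (hK0 : 0 ≤ K) (hK : ∀ t ∈ Ioo 0 H.T, ∀ x, |H.R t x| ≤ K) (hG1 : 1 ≤ G)
    (hc : 0 < c) (hη1 : η ≤ c / 2) (hC1 : 0 < C1) (hC2 : 0 < C2) (hη2 : C1 * η ≤ ε0 / 4)
    (hL : 0 < L) (hLe : Real.exp (-L) ≤ η / 2) (c'1 : (G + K / 2) * c' ≤ η / 2)
    (c'2 : C2 * (c' + l) ≤ ε0 / 4) (hV : 0 ≤ V) (hΛ : Λ = 2 + G + K + V) (ll1 : l ≤ 1)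
    (hn0 : 0 ≤ n0) (hn : Λ * l ^ 4 * n0 ≤ ε0 / 4)
    (P : H.Pot (t - L * l ^ 2) b' l F u) (hb1 : t + l ^ 2 + l ^ 2 ≤ b') (w4 : b' - t ≤ c' * l)
    (hF : ∀ σ ∈ Icc (t - L * l ^ 2) b', ∀ y, H.gam σ F F y ≤ G / l ^ 2)
    (f4 : ∀ y, c / 2 < u t y → H.d (t - L * l ^ 2) x y < C' * l)
    (hvol : ∀ σ ∈ Ioo 0 H.T, (H.vol σ).real (H.B (t - L * l ^ 2) x (C' * l)) ≤ V * l ^ 4)
    (hN : ∀ z, H.d (t - L * l ^ 2) x z < C' * l → H.N 0 (t + l ^ 2 + l ^ 2) z ≤ n0)
    (hmv : ∀ {β : ℝ → ℝ}, H.Mov t b' l c Λ u (H.potV l F u) → ContinuousOn β (Icc t b') →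
      (∀ σ ∈ Icc t b', 0 ≤ β σ) → (∀ σ ∈ Icc t b', ∀ x, |H.potV l F u σ x| ≤ β σ) →
      ∀ s σ : ℝ, t + l ^ 2 ≤ s → s ≤ σ → σ ≤ b' →
      ∫ x, lcut (2 * c) (u σ x) * H.N 0 σ x ∂H.vol σ ≤
        ∫ x, lcut (2 * c) (u s x) * H.N 0 s x ∂H.vol s + C1 * (∫ r in s..σ, β r) +
          C2 * ((σ - s) / l + l))
    {σ : ℝ} (hσ : σ ∈ Icc (t + l ^ 2 + l ^ 2) b') {y : M}
    (hy : 8 * c ≤ u (t + l ^ 2 + l ^ 2) y) : H.en σ y (c / G * l) ≤ ε0 := by
  have A := h.alg
  have I := h.int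
  have hl := P.lp
  have l2 : 0 < l ^ 2 := by positivity
  have w5 : 0 < L * l ^ 2 := by positivity
  obtain ⟨a, ha⟩ : ∃ a, a = t - L * l ^ 2 := ⟨_, rfl⟩
  obtain ⟨ts, hts⟩ : ∃ ts, ts = t + l ^ 2 + l ^ 2 := ⟨_, rfl⟩
  rw [← ha] at P hF f4 hvol hN
  rw [← hts] at hb1 hN hσ hy
  have hat : a < t := by linarith
  have tts : t < ts := by linarith
  have gu := P.grad A h.evo (by positivity) hF
  have sp := P.speed A h.evo hK (by linarith) hF
  obtain ⟨β, hβ⟩ : ∃ β : ℝ → ℝ, β = fun σ =>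
    Real.exp (-((σ - a) / l ^ 2)) / l ^ 2 + (G + K / 2) / l := ⟨_, rfl⟩
  have sp' : ∀ σ ∈ Icc a b', ∀ z, |H.potV l F u σ z| ≤ β σ := by rw [hβ]; exact sp
  have cβ : Continuous β := by rw [hβ]; fun_prop
  have iβ : ∀ s1 s2, t ≤ s1 → s1 ≤ s2 → s2 ≤ b' → ∫ σ in s1..s2, β σ ≤ η := by
    intro s1 s2 k1 k2 k3
    rw [hβ]
    refine (int_speed k2).trans ?_
    have q1 : Real.exp (-((s1 - a) / l ^ 2)) ≤ Real.exp (-L) := Real.exp_le_exp.2
      (neg_le_neg ((le_div_iff₀ l2).2 (by linarith)))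
    have q2 : (G + K / 2) / l * (s2 - s1) ≤ (G + K / 2) / l * (c' * l) :=
      mul_le_mul_of_nonneg_left (by linarith) (by positivity)
    have q3 : (G + K / 2) / l * (c' * l) = (G + K / 2) * c' := by field_simp
    linarith
  have sub : Icc t b' ⊆ Icc a b' := Icc_subset_Icc hat.le le_rfl
  have mv : ∀ σ ∈ Icc t b', ∀ z, |u σ z - u t z| ≤ η := fun σ hσ z =>
    (D.abs_sub_le_int (φ := fun σ => u σ z) hσ.1
      (fun r hr => (P.dt.mono hat.le hσ.2) r hr z) cβ.continuousOn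
      fun r hr => sp' r ⟨hat.le.trans hr.1, hr.2.trans hσ.2⟩ z).trans
      (iβ t σ le_rfl hσ.1 hσ.2)
  have lev : ∀ σ ∈ Icc t b', ∀ z, c < u σ z → z ∈ H.B a x (C' * l) := fun σ hσ z hz =>
    f4 z (by linarith [(abs_le.1 (mv σ hσ z)).2])
  have bv : ∀ σ ∈ Icc t b', ∀ z, |H.potV l F u σ z| ≤ (1 + G + K / 2) / l ^ 2 := by
    intro σ hσ z
    refine (sp σ (sub hσ) z).trans ?_
    have q1 : Real.exp (-((σ - a) / l ^ 2)) ≤ 1 := Real.exp_le_one_iff.2
      (neg_nonpos.2 (div_nonneg (by linarith [hσ.1]) l2.le))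
    have q2 : (G + K / 2) / l ≤ (G + K / 2) / l ^ 2 :=
      div_le_div_of_nonneg_left (by positivity) l2 (by nlinarith only [hl, ll1])
    have q3 := div_le_div_of_nonneg_right q1 l2.le
    have : (1 + G + K / 2) / l ^ 2 = 1 / l ^ 2 + (G + K / 2) / l ^ 2 := by ring
    linarith
  have hst : H.St t b' := P.st.mono hat.le (tts.trans_le hb1) le_rfl
  have mov : H.Mov t b' l c Λ u (H.potV l F u) := by
    refine ⟨hst, A.sm_mono P.sm hat.le le_rfl, P.dt.mono hat.le le_rfl, fun σ hσ z => ?_,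
      fun σ hσ z => ?_, fun σ hσ z => ?_, fun σ hσ => ?_⟩
    · exact (bv σ hσ z).trans (div_le_div_of_nonneg_right (by linarith) l2.le)
    · have q1 := abs_le.1 (bv σ hσ z)
      have q2 : |(F z - u σ z) / l ^ 2| ≤ 1 / l ^ 2 := by
        rw [abs_div, abs_of_pos l2]
        refine div_le_div_of_nonneg_right (abs_le.2 ⟨?_, ?_⟩) l2.le
        · linarith [P.le_one A σ (sub hσ) z, P.Fn z]
        · linarith [P.nonneg A σ (sub hσ) z, P.F1 z]
      have q3 : (1 + G + K / 2) / l ^ 2 + 1 / l ^ 2 ≤ Λ / l ^ 2 := by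
        rw [← add_div]; exact div_le_div_of_nonneg_right (by linarith) l2.le
      have q4 := abs_le.1 q2
      unfold potV at q1
      rw [abs_le]; constructor <;> linarith [q1.1, q1.2, q4.1, q4.2]
    · exact (gu σ (sub hσ) z).trans (div_le_div_of_nonneg_right (by linarith) l2.le)
    · have := I.fin σ (hst.mem hσ)
      exact (measureReal_mono (lev σ hσ)).trans ((hvol σ (hst.mem hσ)).trans
        (mul_le_mul_of_nonneg_right (by linarith) (by positivity)))
  have m1 : ts ∈ Icc t b' := ⟨tts.le, hb1⟩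
  have m2 : σ ∈ Icc t b' := ⟨tts.le.trans hσ.1, hσ.2⟩
  have hS := hst.mem m1
  have hZ := hst.mem m2
  have k1 := hmv mov cβ.continuousOn (fun r _ => by rw [hβ]; positivity)
    (fun r hr z => sp' r (sub hr) z) ts σ (by linarith) hσ.1 hσ.2
  have u1 := A.sm_s0 mov.sm ts m1
  have u2 := A.sm_s0 mov.sm σ m2
  have k2 : ∫ z, lcut (2 * c) (u ts z) * H.N 0 ts z ∂H.vol ts ≤ ε0 / 4 := by
    have op : IsOpen {z | c < u ts z} := isOpen_lt continuous_const (A.s0_cont u1)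
    have := I.fin ts hS
    refine (wt_le_setInt h hS op (A.s0_compU (lcut_cd _) u1) (A.s0_N hS 0)
      (fun z => E.psi_le_one _) (h.evo.N_nonneg 0 ts hS) fun z hz => ?_).trans ?_
    · by_contra hn
      have : u ts z ≤ c := not_lt.1 hn
      exact hz (lcut_zero (by positivity) (by linarith))
    have q1 := setIntegral_mono_on (A.integrable I hS (A.s0_N hS 0)).integrableOn
      (integrable_const n0).integrableOn op.measurableSet fun z hz => hN z (lev ts m1 z hz)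
    rw [setIntegral_const, smul_eq_mul] at q1
    exact q1.trans ((mul_le_mul_of_nonneg_right (mov.vol ts m1) hn0).trans hn)
  have k3 := mul_le_mul_of_nonneg_left (iβ ts σ tts.le hσ.1 hσ.2) hC1.le
  have k4 : C2 * ((σ - ts) / l + l) ≤ ε0 / 4 := by
    have q1 : (σ - ts) / l ≤ c' := (div_le_iff₀ hl).2 (by linarith [hσ.2])
    exact (mul_le_mul_of_nonneg_left (by linarith) hC2.le).trans c'2
  have k5 := setInt_le_wt h hZ (isOpen_B h.dist hZ y (c / G * l))
    (A.s0_compU (lcut_cd (2 * c)) u2)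
    (A.s0_N hZ 0) (fun z => E.psi_nonneg _) (h.evo.N_nonneg 0 σ hZ) fun z hz => by
      refine (lcut_one (by positivity) ?_).ge
      have q1 := A.lip_glob h.dist hZ (A.s0_cmul (l / G) u2) (fun w => by
        rw [A.gam_cmul hZ _ u2 (A.s0_cmul _ u2), A.gam_cmul' hZ _ u2 u2, ← mul_assoc, ← sq]
        have r1 := mul_le_mul_of_nonneg_left (gu σ (sub m2) w) (sq_nonneg (l / G))
        have r2 : (l / G) ^ 2 * (G / l ^ 2) = 1 / G := by field_simp
        have r3 : 1 / G ≤ 1 := (div_le_one (by positivity)).2 hG1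
        linarith) y z
      have q2 : H.d σ y z < c / G * l := hz
      have q3 : l / G * (u σ y - u σ z) < l / G * c := by
        have : c / G * l = l / G * c := by ring
        linarith [(abs_le.1 q1).1]
      have q4 := lt_of_mul_lt_mul_left q3 (by positivity)
      linarith [(abs_le.1 (mv σ m2 y)).1, (abs_le.1 (mv ts m1 y)).2]
  have k6 : 0 ≤ ε0 / 4 := le_trans (mul_nonneg (mul_nonneg (by linarith) (by positivity)) hn0) hn
  unfold en
  linarith

end HC

end Crest.Agent.N207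

end
end

-- ▼ part N207/E/St6
section

/-!
# Row 207, block E (helper83): a regular scale `r` persists forward for a time `c r`
-/

set_option autoImplicit false
set_option linter.dupNamespace false
set_option linter.unusedSectionVars false
open Set MeasureTheory Filter Topology
open scoped ContDiff

noncomputable section

namespace Crest.Agent.N207

namespace HC

variable {M : Type*} [TopologicalSpace M] [CompactSpace M] [MeasurableSpace M]
  [OpensMeasurableSpace M] {H : HC M}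

/-- the continuity argument -/
theorem stat_boot (h : H.Ok) {K1 C0 ε0 c' l1 p t ts a l b : ℝ} {x : M} {F : M → ℝ}
    (hs : H.St a b) (F0 : H.S0 F) (hK1 : 1 ≤ K1) (hC0 : 0 < C0) (hl : 0 < l) (l10 : 0 < l1)
    (hp : 0 < p) (hat : a < t) (tts : t < ts) (tsb : ts ≤ b) (w1 : t - a ≤ c' * l)
    (w4 : b - t ≤ c' * l) (c'3 : c' ≤ l1 / (4 * √C0))
    (f1 : ∀ σ ∈ Ioo 0 H.T, ∀ y, p * l ≤ H.d t x y → H.gam σ F F y = 0)
    (f2 : ∀ y, H.gam t F F y ≤ K1 / l ^ 2)
    (win : ∀ y, H.d t x y < p * l → ∀ σ ∈ Icc a ts, H.Q 0 σ y ≤ C0 / (l1 * l) ^ 2)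
    (reg : ∀ σ ∈ Icc ts b, ∀ y, H.en σ y (l1 * l) ≤ ε0 → H.Q 0 σ y ≤ C0 / (l1 * l) ^ 2)
    (core : ∀ b' ∈ Icc ts b, (∀ σ ∈ Icc a b', ∀ y, H.gam σ F F y ≤ 4 * K1 / l ^ 2) →
      ∀ σ ∈ Icc ts b', ∀ y, H.d t x y < p * l → H.en σ y (l1 * l) ≤ ε0) :
    H.en b x (l1 * l) ≤ ε0 := by
  have A := h.alg
  have l2 : 0 < l ^ 2 := by positivity
  have hT := hs.mem (t := t) ⟨hat.le, tts.le.trans tsb⟩
  have ind := cont_ind (A.sm_cont (A.sm_gam hs (A.sm_static F0) (A.sm_static F0)))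
    (m := 2 * K1 / l ^ 2) (m' := 4 * K1 / l ^ 2)
    (div_lt_div_of_pos_right (by linarith) l2)
  have step : ∀ b' ∈ Icc a b, (ts ≤ b' → ∀ σ ∈ Icc a b', ∀ y, H.gam σ F F y ≤ 4 * K1 / l ^ 2) →
      ∀ y, H.gam b' F F y ≤ 2 * K1 / l ^ 2 := by
    intro b' hb' hF y
    by_cases hy : p * l ≤ H.d t x y
    · rw [f1 b' (hs.mem hb') y hy]; positivity
    have hy' := not_le.1 hy
    have rr : 0 < l1 * l := by positivity
    have hq : ∀ σ ∈ Icc a (max b' ts), √(H.Q 0 σ y) ≤ √C0 / (l1 * l) := fun σ hσ => by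
      have : H.Q 0 σ y ≤ C0 / (l1 * l) ^ 2 := by
        by_cases hσt : σ ≤ ts
        · exact win y hy' σ ⟨hσ.1, hσt⟩
        · have r1 : σ ≤ b' := (le_max_iff.1 hσ.2).resolve_right hσt
          have r2 : ts ≤ σ := (not_le.1 hσt).le
          exact reg σ ⟨r2, r1.trans hb'.2⟩ y
            (core b' ⟨r2.trans r1, hb'.2⟩ (hF (r2.trans r1)) σ ⟨r2, r1⟩ y hy')
      refine (Real.sqrt_le_sqrt this).trans (le_of_eq ?_)
      rw [Real.sqrt_div hC0.le, Real.sqrt_sq rr.le]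
    have q1 := gam_static A h.evo (hs.mono le_rfl ((hat.trans tts).trans_le (le_max_right _ _))
      (max_le hb'.2 tsb)) F0 hq (s := t) (t := b')
      ⟨hat.le, tts.le.trans (le_max_right _ _)⟩ ⟨hb'.1, le_max_left _ _⟩
    have q2 : |b' - t| ≤ c' * l := abs_le.2 ⟨by linarith [hb'.1], by linarith [hb'.2]⟩
    have q3 : 2 * (√C0 / (l1 * l)) * |b' - t| ≤ 1 / 2 := by
      refine (mul_le_mul_of_nonneg_left (q2.trans (mul_le_mul_of_nonneg_right c'3 hl.le))
        (by positivity)).trans (le_of_eq ?_)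
      have : 0 < √C0 := Real.sqrt_pos.2 hC0
      field_simp; ring
    have q4 : Real.exp (2 * (√C0 / (l1 * l)) * |b' - t|) ≤ 2 := by
      refine (Real.exp_le_exp.2 (q3.trans (show (1 : ℝ) / 2 ≤ Real.log 2 by
        linarith [Real.log_two_gt_d9]))).trans (le_of_eq (Real.exp_log (by norm_num)))
    have q5 := mul_le_mul q4 (f2 y) (A.gam_nonneg t hT F0 y) (by norm_num)
    rw [mul_div_assoc]
    linarith
  have all := ind (fun y => (step a ⟨le_rfl, hs.2.1.le⟩
      (fun hh => absurd hh (not_le.2 (hat.trans tts))) y).trans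
      (div_le_div_of_nonneg_right (by linarith) l2.le))
    fun b' hb' hF => step b' hb' fun _ => hF
  exact core b ⟨tsb, le_rfl⟩ all b ⟨tsb, le_rfl⟩ x (by rw [h.dist.self t hT]; positivity)

theorem stat_consts1 {c ε0 C1 : ℝ} (hc : 0 < c) (hε : 0 < ε0) (hC1 : 0 < C1) :
    ∃ η L : ℝ, 0 < η ∧ η ≤ c / 2 ∧ C1 * η ≤ ε0 / 4 ∧ 1 ≤ L ∧ Real.exp (-L) ≤ η / 2 := by
  set η := min (c / 2) (ε0 / (4 * C1)) with hη
  have hη0 : 0 < η := by positivity
  have p : 0 < 2 / η := by positivity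
  refine ⟨η, 1 + 2 / η, hη0, min_le_left _ _, ?_, by linarith, ?_⟩
  · have := min_le_right (c / 2) (ε0 / (4 * C1))
    rw [← hη, le_div_iff₀ (by positivity)] at this
    linarith
  · have e1 : 2 / η ≤ Real.exp (1 + 2 / η) := by linarith [Real.add_one_le_exp (1 + 2 / η)]
    rw [Real.exp_neg, inv_le_comm₀ (Real.exp_pos _) (by positivity), inv_div]
    exact e1

theorem stat_consts2 {η g ε0 C2 z : ℝ} (hη : 0 < η) (hg : 0 < g) (hε : 0 < ε0) (hC2 : 0 < C2)
    (hz : 0 < z) : ∃ c', 0 < c' ∧ g * c' ≤ η / 2 ∧ C2 * (c' + c') ≤ ε0 / 4 ∧ c' ≤ z := by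
  set c' := min (η / (2 * g)) (min (ε0 / (8 * C2)) z) with hc'
  refine ⟨c', by positivity, ?_, ?_, (min_le_right _ _).trans (min_le_right _ _)⟩
  · have := min_le_left (η / (2 * g)) (min (ε0 / (8 * C2)) z)
    rw [← hc', le_div_iff₀ (by positivity)] at this
    linarith
  · have : c' ≤ ε0 / (8 * C2) := (min_le_right _ _).trans (min_le_left _ _)
    rw [le_div_iff₀ (by positivity)] at this
    linarith

theorem stat_consts3 {L cR e1 e2 e3 ε0 : ℝ} (hL : 0 < L) (hcR : 0 < cR) (h1 : 0 < e1)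
    (h2 : 0 < e2) (h3 : 0 < e3) (hε : 0 < ε0) :
    ∃ B, 1 ≤ B ∧ L ≤ cR * B ^ 2 ∧ e1 ≤ B ∧ e2 ≤ B ∧ e3 / B ^ 4 ≤ ε0 / 4 := by
  have b1 : 0 < L / cR := by positivity
  have b3 : 0 < 4 * e3 / ε0 := by positivity
  obtain ⟨B, hB⟩ : ∃ B, B = 1 + L / cR + e1 + e2 + 4 * e3 / ε0 := ⟨_, rfl⟩
  have hB1 : 1 ≤ B := by linarith
  refine ⟨B, hB1, ?_, by linarith, by linarith, ?_⟩
  · have q : L / cR ≤ B ^ 2 := le_trans (by linarith) (le_self_pow₀ hB1 (by norm_num))
    rw [div_le_iff₀ hcR] at q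
    linarith
  · have q : 4 * e3 / ε0 ≤ B ^ 4 := le_trans (by linarith) (le_self_pow₀ hB1 (by norm_num))
    rw [div_le_iff₀ hε] at q
    rw [div_le_iff₀ (by positivity)]
    linarith

/-- the energy stays small at the centre -/
theorem stat_centre (h : H.Ok) (S2 : H.Solv2) (hC : H.COut) (hD : H.DOut)
    {t0 ε0 cR r0 C0 : ℝ} (h0 : 0 < t0) (hε : 0 < ε0) (hcR : 0 < cR) (hr0 : 0 < r0) (hC0 : 0 < C0)
    (hreg : ∀ t ∈ Ico t0 H.T, ∀ x, ∀ r, 0 < r → r ≤ r0 → H.en t x r ≤ ε0 →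
      ∀ y ∈ H.B t x (r / 2), ∀ s ∈ Ioo 0 H.T, |s - t| ≤ cR * r ^ 2 →
        H.N 0 s y ≤ C0 * (H.en t x r + r) / r ^ 4 ∧ H.Q 0 s y ≤ C0 / r ^ 2) :
    ∃ c lam r1 : ℝ, 0 < c ∧ 0 < lam ∧ lam ≤ 1 ∧ 0 < r1 ∧ r1 ≤ r0 ∧ r1 ≤ 1 ∧
      ∀ t ∈ Ico t0 H.T, ∀ x, ∀ s, 0 < s → s ≤ r1 → H.en t x s ≤ ε0 → ∀ b < H.T,
        t + cR * s ^ 2 ≤ b → b - t ≤ c * s → H.en b x (lam * s) ≤ ε0 := by
  have A := h.alg
  obtain ⟨K, hK0, hK⟩ := D.exists_K h.evo
  obtain ⟨p, K1, c, hp, hK1, hc, hc1, hset⟩ := exists_setup h S2 hC (half_pos h0)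
  obtain ⟨C1, hC1, hmv⟩ := en_move h hD h0 hc
  obtain ⟨Au, hAu, hup⟩ := hC.dup _ (half_pos h0)
  obtain ⟨Cv, hCv, hvol⟩ := hC.up _ (half_pos h0)
  obtain ⟨η, L, hη0, hη1, hη2, hL1, hLe⟩ := stat_consts1 hc hε hC1
  obtain ⟨C', hC', hset⟩ := hset L hL1
  obtain ⟨V, hV⟩ : ∃ V, V = Real.exp (K * H.T) * (Cv * C' ^ 4) := ⟨_, rfl⟩
  have hV0 : 0 < V := by rw [hV]; positivity
  obtain ⟨Λ, hΛ⟩ : ∃ Λ, Λ = 2 + 4 * K1 + K + V := ⟨_, rfl⟩
  have hΛ1 : 1 ≤ Λ := by linarith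
  obtain ⟨C2, hC2, hmv⟩ := hmv Λ hΛ1
  have l10 : 0 < c / (4 * K1) := by positivity
  have l11 : c / (4 * K1) ≤ 1 := (div_le_one (by positivity)).2 (by linarith)
  obtain ⟨c', c'0, c'1, c'2, c'3⟩ := stat_consts2 (g := 4 * K1 + K / 2)
    (z := c / (4 * K1) / (4 * √C0)) hη0 (by positivity) hε hC2 (by positivity)
  obtain ⟨B, hB1, b1, b2, b3, b4⟩ := stat_consts3 (L := L + 2) (e1 := 2 * Au * (C' + L))
    (e2 := 2 * p) (e3 := C0 * (ε0 + 1) * Λ) (by positivity) hcR (by positivity) (by positivity)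
    (by positivity) hε
  refine ⟨c' / B, c / (4 * K1) / B, min (min r0 1) (min c' (t0 / 2) / L),
    by positivity, by positivity, (div_le_one (by positivity)).2 (by linarith), by positivity,
    (min_le_left _ _).trans (min_le_left _ _), (min_le_left _ _).trans (min_le_right _ _),
    fun t ht x s hs0 hs1 hen b hbT hb1 hb2 => ?_⟩
  have s1 : s ≤ r0 := hs1.trans ((min_le_left _ _).trans (min_le_left _ _))
  have s2 : s ≤ 1 := hs1.trans ((min_le_left _ _).trans (min_le_right _ _))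
  have s4 : s * L ≤ min c' (t0 / 2) := (le_div_iff₀ (by positivity)).1
    (hs1.trans (min_le_right _ _))
  obtain ⟨l, hl, hsl⟩ : ∃ l, 0 < l ∧ s = B * l := ⟨s / B, by positivity, by field_simp⟩
  have ls : l ≤ s := by rw [hsl]; exact le_mul_of_one_le_left hl.le hB1
  have ll1 : l ≤ 1 := ls.trans s2
  have l2 : 0 < l ^ 2 := by positivity
  have hLl : L * l ≤ min c' (t0 / 2) :=
    le_trans (by rw [mul_comm]; exact mul_le_mul_of_nonneg_right ls (by linarith)) s4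
  have lc : l ≤ c' := (le_mul_of_one_le_left hl.le hL1).trans (hLl.trans (min_le_left _ _))
  have eL : L * l ^ 2 = L * l * l := by ring
  have w1 : L * l ^ 2 ≤ c' * l :=
    eL ▸ mul_le_mul_of_nonneg_right (hLl.trans (min_le_left _ _)) hl.le
  have w2 : L * l ^ 2 ≤ t0 / 2 :=
    eL ▸ (mul_le_of_le_one_right (by positivity) ll1).trans (hLl.trans (min_le_right _ _))
  have w3 : L * l ^ 2 + l ^ 2 + l ^ 2 ≤ cR * s ^ 2 := by
    have := mul_le_mul_of_nonneg_right b1 l2.le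
    rw [hsl, mul_pow]
    linarith
  have w4 : b - t ≤ c' * l := by
    have : c' / B * s = c' * l := by rw [hsl]; field_simp
    linarith
  have w5 : 0 < L * l ^ 2 := by positivity
  have e5 : c / (4 * K1) / B * s = c / (4 * K1) * l := by rw [hsl]; field_simp
  rw [e5]
  have tsb : t + l ^ 2 + l ^ 2 ≤ b := by linarith
  obtain ⟨F, u, P, f1, f2, f3, f4⟩ := hset (t := t) (l := l) (b := b) x hl (by linarith [ht.1])
    tsb hbT
  have haT := P.st.mem ⟨le_rfl, P.st.2.1.le⟩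
  have win : ∀ y, H.d t x y < s / 2 → ∀ σ ∈ Icc (t - L * l ^ 2) (t + l ^ 2 + l ^ 2),
      H.N 0 σ y ≤ C0 * (ε0 + 1) / s ^ 4 ∧ H.Q 0 σ y ≤ C0 / s ^ 2 := fun y hy σ hσ => by
    have := hreg t ht x s hs0 s1 hen y hy σ (P.st.mem ⟨hσ.1, hσ.2.trans tsb⟩)
      (abs_le.2 ⟨by linarith [hσ.1], by linarith [hσ.2]⟩)
    exact ⟨this.1.trans (div_le_div_of_nonneg_right
      (mul_le_mul_of_nonneg_left (by linarith) hC0.le) (by positivity)), this.2⟩
  have rr : 0 < c / (4 * K1) * l := by positivity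
  have rs : c / (4 * K1) * l ≤ s := (mul_le_of_le_one_left hl.le l11).trans ls
  refine stat_boot h P.st P.F0 hK1 hC0 hl l10 hp (t := t) (ts := t + l ^ 2 + l ^ 2) (by linarith)
    (by linarith) tsb (by linarith) w4 c'3 f1 f2 (fun y hy σ hσ => ?_) (fun σ hσ y hy => ?_)
    fun b' hb' hF σ hσ y hy => ?_
  · have : 2 * p * l ≤ B * l := mul_le_mul_of_nonneg_right b3 hl.le
    exact (win y (by linarith) σ hσ).2.trans
      (div_le_div_of_nonneg_left hC0.le (by positivity) (pow_le_pow_left₀ rr.le rs 2))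
  · have r3 := P.st.mem (t := σ) ⟨by linarith [hσ.1], hσ.2⟩
    exact (hreg σ ⟨by linarith [ht.1, hσ.1], r3.2⟩ y _ rr (rs.trans s1) hy y
      (show H.d σ y y < _ by rw [h.dist.self σ r3]; positivity) σ r3
      (by rw [sub_self, abs_zero]; positivity)).2
  · refine stat_core h (n0 := C0 * (ε0 + 1) / s ^ 4) hK0 hK (by linarith) hc hη1 hC1 hC2 hη2
      (by linarith) hLe c'1 ((mul_le_mul_of_nonneg_left (by linarith) hC2.le).trans c'2) hV0.le hΛ
      ll1 (by positivity) ?_ (P.mono A (by linarith [hb'.1]) hb'.2) hb'.1 (by linarith [hb'.2])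
      hF f4 (fun r hr => ?_) (fun z hz => ?_)
      (fun m1 m2 m3 m4 => hmv ht.1 hl ll1 m1 m2 m3 m4) hσ (f3 y hy)
    · refine le_trans (le_of_eq ?_) b4
      rw [hsl]; field_simp
    · refine (vol_real_le_st h.int hK0 hK haT hr _).trans ((mul_le_mul_of_nonneg_left
        (hvol _ ⟨by linarith [ht.1], haT.2⟩ x _ (by positivity)) (Real.exp_pos _).le).trans
        (le_of_eq ?_))
      rw [hV]; ring
    · refine (win z ?_ _ ⟨by linarith, le_rfl⟩).1
      have r2 := hup (t - L * l ^ 2) t (by linarith [ht.1]) (by linarith) ht.2 x z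
      have r3 : √(t - (t - L * l ^ 2)) ≤ L * l := sqrt_mul_sq_le hL1 hl (by linarith)
      have r4 : Au * (H.d (t - L * l ^ 2) x z + √(t - (t - L * l ^ 2))) < Au * (C' * l + L * l) :=
        mul_lt_mul_of_pos_left (by linarith) hAu
      have r5 : 2 * Au * (C' + L) * l ≤ B * l := mul_le_mul_of_nonneg_right b2 hl.le
      linarith

/-- forward persistence of a regular scale -/
theorem eStat (h : H.Ok) (S2 : H.Solv2) (hC : H.COut) (hD : H.DOut) (hR : H.EReg) : H.EStat := by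
  intro t0 h0
  obtain ⟨ε0, cR, r0, hε, hcR, hr0, -, hreg⟩ := hR t0 h0
  obtain ⟨C0, hC0, h1⟩ := hreg 0
  obtain ⟨c, lam, r1, hc, hlam, hlam1, hr1, r10, r11, h2⟩ := stat_centre h S2 hC hD h0 hε hcR hr0
    hC0 fun t ht x r k1 k2 k3 y hy s hs k4 => by simpa using (h1 t ht x r k1 k2 k3 y hy).1 s hs k4
  refine ⟨ε0, c / 2, r1, hε, by positivity, hr1, fun k => ?_⟩
  obtain ⟨C, hCk, h3⟩ := hreg k
  have hq : 1 ≤ 2 / lam := (le_div_iff₀ hlam).2 (by linarith)
  refine ⟨C * (ε0 + 1) * (2 / lam) ^ (4 + 2 * k), by positivity,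
    fun t ht x r k1 k2 k3 y hy s hs k4 => ?_⟩
  have hT : t ∈ Ioo 0 H.T := ⟨h0.trans_le ht.1, ht.2⟩
  have hS : s ∈ Ioo 0 H.T := ⟨hT.1.trans_le hs.1, hs.2⟩
  have e1 : H.en t y (r / 2) ≤ ε0 := (en_mono_set h hT fun z hz => by
    have q1 : H.d t x y < r / 2 := hy
    have q2 : H.d t y z < r / 2 := hz
    show H.d t x z < r
    linarith [h.dist.tri t hT x y z]).trans k3
  have key : ∃ ρ, lam * (r / 2) ≤ ρ ∧ H.N k s y ≤ C * (ε0 + 1) / ρ ^ (4 + 2 * k) ∧
      H.Q k s y ≤ C / ρ ^ (2 + 2 * k) := by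
    have l0 : 0 < lam * (r / 2) := by positivity
    have l1 : lam * (r / 2) ≤ r / 2 := by nlinarith
    by_cases hw : s - t ≤ cR * (r / 2) ^ 2
    · have := (h3 t ht y (r / 2) (by positivity) (by linarith) e1 y
        (show H.d t y y < _ by rw [h.dist.self t hT]; positivity)).1 s hS
        (by rw [abs_of_nonneg (sub_nonneg.2 hs.1)]; exact hw)
      exact ⟨r / 2, l1, this.1.trans (div_le_div_of_nonneg_right
        (mul_le_mul_of_nonneg_left (by linarith) hCk.le) (by positivity)), this.2⟩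
    · have e2 := h2 t ht y (r / 2) (by positivity) (by linarith) e1 s hs.2
        (by linarith [not_le.1 hw]) (by linarith)
      have := (h3 s ⟨ht.1.trans hs.1, hs.2⟩ y _ l0 (by linarith) e2 y
        (show H.d s y y < _ by rw [h.dist.self s hS]; positivity)).1 s hS
        (by rw [sub_self, abs_zero]; positivity)
      exact ⟨_, le_rfl, this.1.trans (div_le_div_of_nonneg_right
        (mul_le_mul_of_nonneg_left (by linarith) hCk.le) (by positivity)), this.2⟩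
  obtain ⟨ρ, hρ, n1, n2⟩ := key
  have l0 : 0 < lam * (r / 2) := by positivity
  have sc : ∀ n : ℕ, 1 / ρ ^ n ≤ (2 / lam) ^ n / r ^ n := fun n => by
    have e : (2 / lam) ^ n / r ^ n = 1 / (lam * (r / 2)) ^ n := by
      rw [← div_pow, ← one_div_pow]; congr 1; field_simp
    rw [e]
    exact one_div_le_one_div_of_le (by positivity) (pow_le_pow_left₀ l0.le hρ n)
  constructor
  · refine n1.trans ?_
    rw [div_eq_mul_one_div, mul_div_assoc]
    exact mul_le_mul_of_nonneg_left (sc _) (by positivity)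
  · refine n2.trans ?_
    rw [div_eq_mul_one_div]
    refine (mul_le_mul_of_nonneg_left (sc _) hCk.le).trans ?_
    rw [← mul_div_assoc]
    refine div_le_div_of_nonneg_right ?_ (by positivity)
    exact mul_le_mul (by nlinarith) (pow_le_pow_right₀ hq (by omega)) (by positivity)
      (by positivity)

end HC

end Crest.Agent.N207

end
end

-- ▼ part N207/D/CutH
section

/-!
# Row 207, block D: `psi (u / ρ)` is a cutoff; flux of a cutoff on a short window
-/

set_option autoImplicit false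
set_option linter.dupNamespace false
set_option linter.unusedSectionVars false
open Set MeasureTheory
open scoped ContDiff

noncomputable section

namespace Crest.Agent.N207

namespace D

open E

/-- the rescaled profile -/
def ps (ρ s : ℝ) : ℝ := psi (s / ρ)

theorem ps_cd (ρ : ℝ) : ContDiff ℝ ∞ (ps ρ) := psi_cd.comp (contDiff_id.div_const ρ)

theorem ps_nonneg (ρ s : ℝ) : 0 ≤ ps ρ s := psi_nonneg _

theorem ps_le_one (ρ s : ℝ) : ps ρ s ≤ 1 := psi_le_one _

theorem ps_one {ρ s : ℝ} (hρ : 0 < ρ) (h : s ≤ ρ) : ps ρ s = 1 := psi_one ((div_le_one hρ).2 h)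

theorem ps_zero {ρ s : ℝ} (hρ : 0 < ρ) (h : 2 * ρ ≤ s) : ps ρ s = 0 :=
  psi_zero ((le_div_iff₀ hρ).2 h)

theorem ps_d1 (ρ : ℝ) : deriv (ps ρ) = fun s => deriv psi (s / ρ) / ρ := by
  funext s
  have h1 : HasDerivAt psi (deriv psi (s / ρ)) (s / ρ) :=
    (psi_cd.differentiable (by simp) _).hasDerivAt
  have := HasDerivAt.comp (h₂ := psi) s h1 ((hasDerivAt_id s).div_const ρ)
  refine (HasDerivAt.congr_deriv (f := ps ρ) this ?_).deriv
  ring

theorem ps_d2 (ρ s : ℝ) : deriv (deriv (ps ρ)) s = deriv (deriv psi) (s / ρ) / ρ ^ 2 := by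
  rw [ps_d1]
  have hc : ContDiff ℝ ∞ (deriv psi) := (contDiff_infty_iff_deriv.1 psi_cd).2
  have h1 : HasDerivAt (deriv psi) (deriv (deriv psi) (s / ρ)) (s / ρ) :=
    (hc.differentiable (by simp) _).hasDerivAt
  have := (HasDerivAt.comp (h₂ := deriv psi) s h1 ((hasDerivAt_id s).div_const ρ)).div_const ρ
  refine (HasDerivAt.congr_deriv (f := fun s => deriv psi (s / ρ) / ρ) this ?_).deriv
  ring

theorem ps_bounds : ∃ K, 1 ≤ K ∧ ∀ ρ > 0, ∀ s, |deriv (ps ρ) s| ≤ K / ρ * √(ps ρ s) ∧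
    |deriv (deriv (ps ρ)) s| ≤ K / ρ ^ 2 * √(ps ρ s) ∧ deriv (ps ρ) s ^ 2 ≤ K / ρ ^ 2 * ps ρ s := by
  obtain ⟨K, hK, h1, h2⟩ := psi_bounds
  refine ⟨K, hK, fun ρ hρ s => ?_⟩
  have e : √(ps ρ s) = chi (s / ρ) := by
    unfold ps; rw [psi_eq, Real.sqrt_sq (chi_nonneg _)]
  have p0 := psi_nonneg (s / ρ)
  have k1 : deriv psi (s / ρ) ^ 2 ≤ K * psi (s / ρ) :=
    (h1 _).trans (mul_le_of_le_one_right (by positivity) (chi_le_one _))
  refine ⟨?_, ?_, ?_⟩
  · rw [ps_d1, e, abs_div, abs_of_pos hρ, div_mul_eq_mul_div]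
    refine div_le_div_of_nonneg_right (abs_le_of_sq_le_sq' ?_ ?_ |> abs_le.2) hρ.le
    · rw [mul_pow, ← psi_eq]
      refine k1.trans (mul_le_mul_of_nonneg_right (by nlinarith) p0)
    · have := chi_nonneg (s / ρ); positivity
  · rw [ps_d2, e, abs_div, abs_of_pos (by positivity : 0 < ρ ^ 2), div_mul_eq_mul_div]
    exact div_le_div_of_nonneg_right (h2 _) (by positivity)
  · rw [ps_d1, div_pow, div_mul_eq_mul_div]
    exact div_le_div_of_nonneg_right k1 (by positivity)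

variable {M : Type*} [TopologicalSpace M] [CompactSpace M] [MeasurableSpace M]
  [OpensMeasurableSpace M] {H : HC M}

/-- `psi (u / ρ)` is a cutoff -/
theorem cutf_ps (A : H.Alg) (I : H.Intg) : ∃ K, 1 ≤ K ∧ ∀ {a b r L ρ Λ : ℝ} {u u' : ℝ → M → ℝ},
    H.St a b → 0 < ρ → 0 ≤ Λ → H.Sm a b u → HasDt a b u u' →
    (∀ t ∈ Icc a b, ∀ x, H.gam t (u t) (u t) x ≤ 1) → (∀ t ∈ Icc a b, ∀ x, |u' t x| ≤ Λ) →
    (∀ t ∈ Icc a b, ∀ x, |H.lap t (u t) x| ≤ Λ) → K * (Λ / ρ + 1 / ρ ^ 2) ≤ L / r ^ 2 →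
    (∀ t ∈ Icc a b, (H.vol t).real {x | u t x < 2 * ρ} ≤ L * r ^ 4) →
    H.Cutf a b r L (fun t x => ps ρ (u t x)) (fun t x => deriv (ps ρ) (u t x) * u' t x) ∧
      ∀ t ∈ Icc a b, ∀ x, |deriv (ps ρ) (u t x) * u' t x| ≤ K * Λ / ρ ∧
        H.gam t (fun y => ps ρ (u t y)) (fun y => ps ρ (u t y)) x ≤ K / ρ ^ 2 := by
  obtain ⟨K, hK, hb⟩ := ps_bounds
  refine ⟨K, hK, fun {a b r L ρ Λ u u'} hs hρ hΛ su du hg h1 h2 hL hV => ?_⟩
  have hK0 : 0 ≤ K := by linarith
  have x1 : 0 ≤ K * (Λ / ρ) := by positivity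
  have x2 : 0 ≤ K * (1 / ρ ^ 2) := by positivity
  have b1 : ∀ (s w : ℝ), |w| ≤ Λ → |deriv (ps ρ) s * w| ≤ K * (Λ / ρ) * √(ps ρ s) := by
    intro s w hw
    rw [abs_mul]
    calc _ ≤ K / ρ * √(ps ρ s) * Λ :=
          mul_le_mul (hb ρ hρ s).1 hw (abs_nonneg _) (by positivity)
      _ = _ := by ring
  have b3 : ∀ t ∈ Icc a b, ∀ x, H.gam t (fun y => ps ρ (u t y)) (fun y => ps ρ (u t y)) x ≤
      K / ρ ^ 2 * ps ρ (u t x) := fun t ht x => by
    rw [A.gam_compU2 (hs.mem ht) (ps_cd ρ) (A.sm_s0 su t ht)]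
    exact (mul_le_of_le_one_right (sq_nonneg _) (hg t ht x)).trans (hb ρ hρ _).2.2
  have q1 : ∀ s, √(ps ρ s) ≤ 1 := fun s => Real.sqrt_le_one.2 (ps_le_one ρ s)
  refine ⟨⟨A.sm_compU (ps_cd ρ) su,
    du.comp isOpen_univ (ps_cd ρ).contDiffOn fun _ _ _ => mem_univ _,
    fun t _ x => ps_nonneg _ _, fun t _ x => ps_le_one _ _, fun t ht x => ?_, fun t ht x => ?_,
    fun t ht x => ?_, fun t ht => ?_⟩, fun t ht x => ⟨?_, ?_⟩⟩
  · refine (b1 _ _ (h1 t ht x)).trans
      (mul_le_mul_of_nonneg_right (by nlinarith) (Real.sqrt_nonneg _))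
  · rw [A.lap_compU (hs.mem ht) (ps_cd ρ) (A.sm_s0 su t ht)]
    have k1 := b1 (u t x) _ (h2 t ht x)
    have k2 : |deriv (deriv (ps ρ)) (u t x) * H.gam t (u t) (u t) x| ≤
        K * (1 / ρ ^ 2) * √(ps ρ (u t x)) := by
      rw [abs_mul, abs_of_nonneg (A.gam_nonneg t (hs.mem ht) (A.sm_s0 su t ht) x)]
      calc _ ≤ |deriv (deriv (ps ρ)) (u t x)| :=
            mul_le_of_le_one_right (abs_nonneg _) (hg t ht x)
        _ ≤ _ := (hb ρ hρ _).2.1
        _ = _ := by ring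
    have k3 := mul_le_mul_of_nonneg_right hL (Real.sqrt_nonneg (ps ρ (u t x)))
    refine (abs_add_le _ _).trans ?_
    nlinarith
  · refine (b3 t ht x).trans (mul_le_mul_of_nonneg_right ?_ (ps_nonneg _ _))
    have : K / ρ ^ 2 = K * (1 / ρ ^ 2) := by ring
    nlinarith
  · have := I.fin t (hs.mem ht)
    refine (measureReal_mono (fun x hx => ?_) (measure_ne_top _ _)).trans (hV t ht)
    by_contra h
    exact hx (ps_zero hρ (not_lt.1 h))
  · refine (b1 _ _ (h1 t ht x)).trans ?_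
    rw [mul_div_assoc]
    exact mul_le_of_le_one_right x1 (q1 _)
  · exact (b3 t ht x).trans (mul_le_of_le_one_right (by positivity) (ps_le_one _ _))

/-- the flux through a cutoff on a window of length `≤ θ²` -/
theorem flux_le (A : H.Alg) (I : H.Intg) (hE : H.Evo) (hF : H.Flux) : ∃ C, 0 < C ∧
    ∀ {a b E Λ Γ θ : ℝ} {χ χ' : ℝ → M → ℝ}, H.St a b → H.Sm a b χ → HasDt a b χ χ' → 0 < θ →
    0 ≤ Λ → 0 ≤ Γ → (∀ t ∈ Icc a b, ∀ x, |χ' t x| ≤ Λ) →
    (∀ t ∈ Icc a b, ∀ x, H.gam t (χ t) (χ t) x ≤ Γ ^ 2) →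
    (∀ t ∈ Icc a b, ∫ x, H.N 0 t x ∂H.vol t ≤ E) →
    (∫ t in a..b, ∫ x, (H.Q 0 t x ^ 2 + H.Q 1 t x) ∂H.vol t ≤ E) →
    ∀ s ∈ Icc a b, ∀ t ∈ Icc a b, |t - s| ≤ θ ^ 2 →
      |∫ x, χ t x * H.Pf t x ∂H.vol t - ∫ x, χ s x * H.Pf s x ∂H.vol s| ≤
        C * E * (Λ * θ ^ 2 + Γ * θ) := by
  obtain ⟨C, hC, hF⟩ := hF
  refine ⟨16 + 2 * C, by positivity,
    fun {a b E Λ Γ θ χ χ'} hs sχ dχ hθ hΛ hΓ b1 b2 hN hQ => ?_⟩
  have hE0 : 0 ≤ E := (integral_nonneg fun x => hE.N_nonneg 0 a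
    (hs.mem (left_mem_Icc.2 hs.2.1.le)) x).trans (hN a (left_mem_Icc.2 hs.2.1.le))
  suffices h : ∀ s ∈ Icc a b, ∀ t ∈ Icc a b, s ≤ t → t - s ≤ θ ^ 2 →
      |∫ x, χ t x * H.Pf t x ∂H.vol t - ∫ x, χ s x * H.Pf s x ∂H.vol s| ≤
        (16 + 2 * C) * E * (Λ * θ ^ 2 + Γ * θ) by
    intro s hs' t ht hst
    rcases le_total s t with k | k
    · exact h s hs' t ht k ((le_abs_self _).trans hst)
    · rw [abs_sub_comm]
      exact h t ht s hs' k ((le_abs_self _).trans (by rwa [abs_sub_comm]))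
  intro s hs' t ht hst hθ'
  refine (hF hs sχ dχ s t hs'.1 hst ht.2).trans ?_
  have usub : uIcc s t ⊆ Icc a b := uIcc_subset_Icc hs' ht
  have sS := A.sm_add (A.sm_pow 2 (A.sm_Q 0 hs)) (A.sm_Q 1 hs)
  have cS := A.int_cont I hs sS
  have j1 := (((ap_flux A hE hs C sχ dχ).int_cont A I hs).mono usub).intervalIntegrable
    (μ := volume)
  have j2 := (cS.mono usub).intervalIntegrable (μ := volume)
  have n1 : ∀ σ ∈ Icc a b, 0 ≤ ∫ x, (H.Q 0 σ x ^ 2 + H.Q 1 σ x) ∂H.vol σ := fun σ hσ =>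
    integral_nonneg fun x => add_nonneg (sq_nonneg _) (hE.Q_nonneg 1 σ (hs.mem hσ) x)
  have g1 : ∫ σ in s..t, ∫ x, (|χ' σ x| * |H.Pf σ x| +
      C * (√(H.gam σ (χ σ) (χ σ) x) * √(H.N 0 σ x) * √(H.Q 1 σ x))) ∂H.vol σ ≤
      ∫ σ in s..t, ((16 * Λ + C * Γ / θ) * E +
        C * Γ * θ * ∫ x, (H.Q 0 σ x ^ 2 + H.Q 1 σ x) ∂H.vol σ) := by
    refine intervalIntegral.integral_mono_on hst j1
      (intervalIntegrable_const.add (j2.const_mul _)) fun σ hσ => ?_
    have hσ' : σ ∈ Icc a b := ⟨hs'.1.trans hσ.1, hσ.2.trans ht.2⟩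
    have hm := hs.mem hσ'
    have i1 := A.integrable I hm (A.s0_N hm 0)
    have i2 := A.integrable I hm (A.sm_s0 sS σ hσ')
    have key := int_comb (16 * Λ + C * Γ / θ) (C * Γ * θ) 0 0
      (A.integrable_cont I hm ((ap_flux A hE hs C sχ dχ).cont A hσ')) i1 i2 i1 i1 fun x => by
        have n0 := hE.N_nonneg 0 σ hm x
        have q1 := hE.Q_nonneg 1 σ hm x
        have k1 : |χ' σ x| * |H.Pf σ x| ≤ Λ * (16 * H.N 0 σ x) :=
          mul_le_mul (b1 σ hσ' x) (abs_Pf_le hE hm x) (abs_nonneg _) hΛ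
        have k2 : √(H.gam σ (χ σ) (χ σ) x) ≤ Γ := Real.sqrt_le_iff.2 ⟨hΓ, b2 σ hσ' x⟩
        have k3 : √(H.N 0 σ x) * √(H.Q 1 σ x) ≤ H.N 0 σ x / θ + θ * H.Q 1 σ x := by
          have y := young_sqrt (C := 1) (f := √(H.Q 1 σ x)) n0 hθ
          rw [Real.sq_sqrt q1, one_mul] at y
          have : 1 ^ 2 / (4 * θ) * H.N 0 σ x ≤ H.N 0 σ x / θ := by
            rw [one_pow, div_mul_eq_mul_div, one_mul]
            exact div_le_div_of_nonneg_left n0 hθ (by linarith)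
          linarith
        have k4 : √(H.gam σ (χ σ) (χ σ) x) * √(H.N 0 σ x) * √(H.Q 1 σ x) ≤
            Γ * (H.N 0 σ x / θ + θ * H.Q 1 σ x) := by
          rw [mul_assoc]; exact mul_le_mul k2 k3 (by positivity) hΓ
        have k5 := mul_le_mul_of_nonneg_left k4 hC.le
        have k6 : 0 ≤ C * Γ * θ * H.Q 0 σ x ^ 2 := by positivity
        have e : C * (Γ * (H.N 0 σ x / θ + θ * H.Q 1 σ x)) =
            C * Γ / θ * H.N 0 σ x + C * Γ * θ * H.Q 1 σ x := by ring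
        nlinarith
    have := mul_le_mul_of_nonneg_left (hN σ hσ') (show 0 ≤ 16 * Λ + C * Γ / θ by positivity)
    linarith
  rw [intervalIntegral.integral_add intervalIntegrable_const (j2.const_mul _),
    intervalIntegral.integral_const, intervalIntegral.integral_const_mul, smul_eq_mul] at g1
  have g2 : ∫ σ in s..t, ∫ x, (H.Q 0 σ x ^ 2 + H.Q 1 σ x) ∂H.vol σ ≤ E := by
    refine le_trans ?_ hQ
    refine intervalIntegral.integral_mono_interval hs'.1 hst ht.2 ?_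
      ((cS.mono (uIcc_of_le hs.2.1.le).le).intervalIntegrable)
    refine (ae_restrict_iff' measurableSet_Ioc).2 (Filter.Eventually.of_forall fun σ hσ => ?_)
    exact n1 σ (Ioc_subset_Icc_self hσ)
  have g3 := mul_le_mul_of_nonneg_left g2 (show 0 ≤ C * Γ * θ by positivity)
  have g4 : (t - s) * ((16 * Λ + C * Γ / θ) * E) ≤ θ ^ 2 * ((16 * Λ + C * Γ / θ) * E) :=
    mul_le_mul_of_nonneg_right hθ' (by positivity)
  have e : θ ^ 2 * ((16 * Λ + C * Γ / θ) * E) = 16 * E * (Λ * θ ^ 2) + C * E * (Γ * θ) := by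
    field_simp
  have p1 : 0 ≤ C * E * (Λ * θ ^ 2) := by positivity
  have p2 : 0 ≤ E * (Γ * θ) := by positivity
  nlinarith

end D

end Crest.Agent.N207

end
end

-- ▼ part N207/D/Pers
section

/-!
# Row 207, block E1: persistence of small energy on a parabolic window
-/

set_option autoImplicit false
set_option linter.dupNamespace false
set_option linter.unusedSectionVars false
open Set MeasureTheory
open scoped ContDiff

noncomputable section

namespace Crest.Agent.N207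

namespace D

variable {M : Type*} [TopologicalSpace M] [CompactSpace M] [MeasurableSpace M]
  [OpensMeasurableSpace M] {H : HC M}

theorem meas_B (Di : H.Dist) {t : ℝ} (ht : t ∈ Ioo 0 H.T) (x : M) (r : ℝ) :
    MeasurableSet (H.B t x r) := (isOpen_lt (Di.cont t ht x) continuous_const).measurableSet

/-- a weight that is one on `S` dominates the integral over `S` -/
theorem set_le_wt {μ : Measure M} {S : Set M} (hS : MeasurableSet S) {ψ f : M → ℝ}
    (i1 : Integrable f μ) (i2 : Integrable (fun x => ψ x * f x) μ) (f0 : ∀ x, 0 ≤ f x)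
    (p0 : ∀ x, 0 ≤ ψ x) (h : ∀ x ∈ S, 1 ≤ ψ x) : ∫ x in S, f x ∂μ ≤ ∫ x, ψ x * f x ∂μ := by
  rw [← integral_indicator hS]
  refine integral_mono (i1.indicator hS) i2 fun x => ?_
  by_cases hx : x ∈ S
  · rw [indicator_of_mem hx]; exact le_mul_of_one_le_left (f0 x) (h x hx)
  · rw [indicator_of_notMem hx]; exact mul_nonneg (p0 x) (f0 x)

/-- a weight `≤ 1` supported in `S` is dominated by the integral over `S` -/
theorem wt_le_set {μ : Measure M} {S : Set M} (hS : MeasurableSet S) {ψ f : M → ℝ}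
    (i1 : Integrable f μ) (i2 : Integrable (fun x => ψ x * f x) μ) (f0 : ∀ x, 0 ≤ f x)
    (p1 : ∀ x, ψ x ≤ 1) (h : ∀ x, ψ x ≠ 0 → x ∈ S) : ∫ x, ψ x * f x ∂μ ≤ ∫ x in S, f x ∂μ := by
  rw [← integral_indicator hS]
  refine integral_mono i2 (i1.indicator hS) fun x => ?_
  by_cases hx : x ∈ S
  · rw [indicator_of_mem hx]; exact mul_le_of_le_one_left (f0 x) (p1 x)
  · rw [indicator_of_notMem hx]
    have : ψ x = 0 := by by_contra h'; exact hx (h x h')
    simp [this]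

/-- weighted energy against the Gauss-Bonnet integrand -/
theorem wt_N_le (A : H.Alg) (I : H.Intg) {t : ℝ} (ht : t ∈ Ioo 0 H.T) {ψ : M → ℝ} (sψ : H.S0 ψ)
    (p0 : ∀ x, 0 ≤ ψ x) : ∫ x, ψ x * H.N 0 t x ∂H.vol t ≤
      ∫ x, ψ x * H.Pf t x ∂H.vol t + 4 * ∫ x, ψ x * H.Q 0 t x ∂H.vol t := by
  obtain ⟨a, b, hs, hm⟩ := HC.exists_st ht
  have i1 := A.integrable I ht (A.s0_mul sψ (A.sm_s0 (A.sm_Pf hs) t hm))
  have i2 := A.integrable I ht (A.s0_mul sψ (A.s0_Q ht 0))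
  have := int_comb 1 4 0 0 (A.integrable I ht (A.s0_mul sψ (A.s0_N ht 0))) i1 i2 i1 i1 fun x => by
    have := mul_le_mul_of_nonneg_left (N_le_Pf (H := H) t x) (p0 x)
    linarith
  linarith

theorem wt_Pf_le (A : H.Alg) (I : H.Intg) (hE : H.Evo) {t : ℝ} (ht : t ∈ Ioo 0 H.T) {ψ : M → ℝ}
    (sψ : H.S0 ψ) (p0 : ∀ x, 0 ≤ ψ x) :
    ∫ x, ψ x * H.Pf t x ∂H.vol t ≤ ∫ x, ψ x * H.N 0 t x ∂H.vol t := by
  obtain ⟨a, b, hs, hm⟩ := HC.exists_st ht
  exact integral_mono (A.integrable I ht (A.s0_mul sψ (A.sm_s0 (A.sm_Pf hs) t hm)))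
    (A.integrable I ht (A.s0_mul sψ (A.s0_N ht 0))) fun x =>
      mul_le_mul_of_nonneg_left (Pf_le hE ht x) (p0 x)

theorem pers_of (h : H.Ok) (vu : H.VolUp) (dl : H.DistLo) (du : H.DistUp) (d : H.DOut) :
    H.EPers := by
  intro t0 h0 ε hε
  have A := h.alg
  have I := h.int
  obtain ⟨E, hE0, hN, hQ⟩ := d.glob (t0 / 2) (by linarith)
  obtain ⟨A0, hA0, hA⟩ := du (t0 / 2) (by linarith)
  obtain ⟨Cd, hCd, hd⟩ := dl
  obtain ⟨Cu, hCu, hu⟩ := A.exists_lipheat h.evo h.solv h.dist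
  obtain ⟨Cv, hCv, hv⟩ := vu (t0 / 2) (by linarith)
  obtain ⟨K, hK, hcut⟩ := cutf_ps A I
  obtain ⟨Cf, hCf, hfl⟩ := flux_le A I h.evo d.flux
  have hK0 : 0 < K := by linarith
  set γ := min (min 1 (1 / (32 * A0 * (Cd + Cu + 1))))
    (ε / (2 * (Cf * E * (8 * A0 * K * (2 * Cu + 1))))) with hγ
  have γ0 : 0 < γ := by positivity
  have γ1 : γ ≤ 1 := (min_le_left _ _).trans (min_le_left _ _)
  have γ2 : γ * (32 * A0 * (Cd + Cu + 1)) ≤ 1 :=
    (le_div_iff₀ (by positivity)).1 ((min_le_left _ _).trans (min_le_right _ _))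
  have γ3 : γ * (2 * (Cf * E * (8 * A0 * K * (2 * Cu + 1)))) ≤ ε :=
    (le_div_iff₀ (by positivity)).1 (min_le_right _ _)
  clear_value γ
  set L := K * (16 * A0 * Cu / γ + 64 * A0 ^ 2) + Cv + 2 / γ ^ 2 + 1 with hL
  have x1 : 0 ≤ K * (16 * A0 * Cu / γ + 64 * A0 ^ 2) := by positivity
  have x2 : 0 < 2 / γ ^ 2 := by positivity
  have L1 : 1 ≤ L := by linarith
  obtain ⟨CL, hCL, hloc⟩ := d.loc (t0 / 2) (by linarith) L L1
  refine ⟨γ ^ 2, 1 / (32 * A0), min 1 (min (t0 / 4) (ε / (8 * CL))), by positivity, by positivity,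
    by positivity, fun t ht x r hr hr0 hen s hs hst => ?_⟩
  have r1 : r ≤ 1 := hr0.trans (min_le_left _ _)
  have r2 : r ≤ t0 / 4 := hr0.trans ((min_le_right _ _).trans (min_le_left _ _))
  have r3 : r * (8 * CL) ≤ ε :=
    (le_div_iff₀ (by positivity)).1 (hr0.trans ((min_le_right _ _).trans (min_le_right _ _)))
  have rr : r ^ 2 ≤ r := by nlinarith
  set θ := γ * r with hθ
  have θ0 : 0 < θ := by positivity
  have eθ : γ ^ 2 * r ^ 2 = θ ^ 2 := by rw [hθ]; ring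
  rw [eθ] at hst
  have θ1 : θ ^ 2 ≤ t0 / 4 := by
    have : γ ^ 2 * r ^ 2 ≤ r ^ 2 := mul_le_of_le_one_left (sq_nonneg r) (pow_le_one₀ γ0.le γ1)
    linarith
  have θ2 : 0 < θ ^ 2 := by positivity
  have hst' := abs_le.1 hst
  set a := t - 2 * θ ^ 2 with ha
  set a' := t - 3 / 2 * θ ^ 2 with ha'
  set b := max s t with hb
  have a0 : t0 / 2 ≤ a := by linarith [ht.1]
  have bT : b < H.T := max_lt hs.2 ht.2
  have tb : t ≤ b := le_max_right _ _
  have sb : s ≤ b := le_max_left _ _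
  have b1 : b ≤ t + θ ^ 2 := max_le (by linarith [hst'.2]) (by linarith)
  have st : H.St a b := ⟨by linarith, by linarith, bT⟩
  have st' : H.St a' b := ⟨by linarith, by linarith, bT⟩
  have sub : Icc a' b ⊆ Icc a b := Icc_subset_Icc (by linarith) le_rfl
  set ρ := r / (8 * A0) with hρ
  have ρ0 : 0 < ρ := by positivity
  have eρ : A0 * ρ = r / 8 := by rw [hρ]; field_simp
  obtain ⟨u, uh, ug, ul, -, ud, -⟩ := hu st x (ρ / 4) (by positivity)
  have sq1 : ∀ σ ∈ Icc a' b, θ / 2 ≤ √(σ - a) := fun σ hσ =>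
    Real.le_sqrt_of_sq_le (by nlinarith [hσ.1])
  have sq2 : ∀ σ ∈ Icc a' b, √(σ - a) ≤ 2 * θ := fun σ hσ =>
    Real.sqrt_le_iff.2 ⟨by positivity, by nlinarith [hσ.2]⟩
  have ul' : ∀ σ ∈ Icc a' b, ∀ y, |H.lap σ (u σ) y| ≤ 2 * Cu / θ := fun σ hσ y => by
    refine (ul σ ⟨by linarith [hσ.1], hσ.2⟩ y).trans ?_
    rw [div_le_div_iff₀ (lt_of_lt_of_le (by positivity) (sq1 σ hσ)) θ0]
    nlinarith [sq1 σ hσ]
  have kγ : A0 * ((Cd + Cu + 1) * θ) ≤ r / 32 := by
    have := mul_le_mul_of_nonneg_right γ2 hr.le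
    rw [hθ]; linarith
  have z1 : 0 ≤ A0 * (Cd * θ) := by positivity
  have z2 : 0 ≤ A0 * (Cu * θ) := by positivity
  have z3 : 0 ≤ A0 * θ := by positivity
  have supp : ∀ σ ∈ Icc a' b, ∀ y, u σ y < 2 * ρ → y ∈ H.B σ x r := fun σ hσ y hy => by
    have k1 := (abs_le.1 (ud σ (sub hσ) y)).1
    have k2 := hA a σ a0 (sub hσ).1 (hσ.2.trans_lt bT) x y
    have k3 := mul_le_mul_of_nonneg_left (sq2 σ hσ) hCu.le
    have k4 : H.d a x y + √(σ - a) ≤ 2 * ρ + ρ / 4 + Cu * (2 * θ) + 2 * θ := by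
      linarith [sq2 σ hσ]
    have k5 := mul_le_mul_of_nonneg_left k4 hA0.le
    show H.d σ x y < r
    nlinarith
  have hsm : s ∈ Icc a' b := ⟨by linarith [hst'.1], sb⟩
  have htm : t ∈ Icc a' b := ⟨by linarith, tb⟩
  obtain ⟨cf, cb⟩ := hcut (r := r) (L := L) (Λ := 2 * Cu / θ) st' ρ0 (by positivity)
    (A.heat_mono uh (by linarith) le_rfl).1 (A.heat_mono uh (by linarith) le_rfl).2
    (fun σ hσ => ug σ (sub hσ)) ul' ul'
    (by
      have e : K * (2 * Cu / θ / ρ + 1 / ρ ^ 2) =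
          K * (16 * A0 * Cu / γ + 64 * A0 ^ 2) / r ^ 2 := by
        rw [hθ, hρ]; field_simp; ring
      rw [e]
      exact div_le_div_of_nonneg_right (by linarith) (by positivity))
    (fun σ hσ => by
      have hm := st'.mem hσ
      have := I.fin σ hm
      refine (measureReal_mono (fun y hy => supp σ hσ y hy) (measure_ne_top _ _)).trans ?_
      refine (hv σ ⟨a0.trans (sub hσ).1, hm.2⟩ x r hr).trans ?_
      exact mul_le_mul_of_nonneg_right (by linarith) (by positivity))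
  have a1 : t0 / 2 ≤ a' := by linarith
  have kK : K / ρ ^ 2 ≤ (K / ρ) ^ 2 := by
    have k : K ≤ K ^ 2 := by rw [sq]; exact le_mul_of_one_le_left hK0.le hK
    rw [div_pow K ρ]; exact div_le_div_of_nonneg_right k (sq_nonneg ρ)
  have fl := hfl (E := E) (Λ := K * (2 * Cu / θ) / ρ) (Γ := K / ρ) st' cf.sm cf.dt θ0
    (by positivity) (by positivity) (fun σ hσ y => (cb σ hσ y).1)
    (fun σ hσ y => (cb σ hσ y).2.trans kK)
    (fun σ hσ => hN σ ⟨a1.trans hσ.1, hσ.2.trans_lt bT⟩) (hQ a1 st') t htm s hsm hst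
  have e2 : Cf * E * (K * (2 * Cu / θ) / ρ * θ ^ 2 + K / ρ * θ) =
      γ * (Cf * E * (8 * A0 * K * (2 * Cu + 1))) := by
    rw [hθ, hρ]; field_simp
  rw [e2] at fl
  have hq := (hloc a1 st' hr r1 cf s s (by
    have : r ^ 2 / L ≤ θ ^ 2 / 2 := by
      rw [div_le_iff₀ (by linarith), ← eθ]
      have k1 : 2 / γ ^ 2 ≤ L := by linarith
      have k2 := (div_le_iff₀ (by positivity : 0 < γ ^ 2)).1 k1
      nlinarith [sq_nonneg r]
    linarith [hst'.1]) le_rfl sb).1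
  have tm := st'.mem htm
  have sψ := fun σ hσ => A.sm_s0 cf.sm σ hσ
  have g1 : H.en s x (1 / (32 * A0) * r) ≤ ∫ y, ps ρ (u s y) * H.N 0 s y ∂H.vol s :=
    set_le_wt (meas_B h.dist hs x _) (A.integrable I hs (A.s0_N hs 0))
      (A.integrable I hs (A.s0_mul (sψ s hsm) (A.s0_N hs 0))) (h.evo.N_nonneg 0 s hs)
      (fun y => ps_nonneg _ _) fun y hy => by
        refine (ps_one ρ0 ?_).ge
        have k0 : H.d s x y < 1 / (32 * A0) * r := hy
        have k1 := (abs_le.1 (ud s (sub hsm) y)).2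
        have k2 := hd a s (by linarith) (sub hsm).1 hs.2 x y
        have k3 := mul_le_mul_of_nonneg_left (sq2 s hsm) hCu.le
        have k4 := mul_le_mul_of_nonneg_left (sq2 s hsm) hCd.le
        have e3 : 1 / (32 * A0) * r = ρ / 4 := by rw [hρ]; field_simp; ring
        have k5 : (Cd + Cu + 1) * θ ≤ ρ / 4 := by
          refine le_of_mul_le_mul_left ?_ hA0
          linarith
        linarith
  have g2 := wt_N_le A I hs (sψ s hsm) fun y => ps_nonneg _ _
  have g3 := wt_Pf_le A I h.evo tm (sψ t htm) fun y => ps_nonneg _ _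
  have g4 : ∫ y, ps ρ (u t y) * H.N 0 t y ∂H.vol t ≤ H.en t x r :=
    wt_le_set (meas_B h.dist tm x _) (A.integrable I tm (A.s0_N tm 0))
      (A.integrable I tm (A.s0_mul (sψ t htm) (A.s0_N tm 0))) (h.evo.N_nonneg 0 t tm)
      (fun y => ps_le_one _ _) fun y hy => supp t htm y (by
        by_contra k
        exact hy (ps_zero ρ0 (not_lt.1 k)))
  have g5 := (abs_le.1 fl).2
  have g6 : CL * r ^ 2 ≤ CL * r := mul_le_mul_of_nonneg_left rr hCL.le
  linarith

end D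

namespace HC

variable {M : Type*} [TopologicalSpace M] [CompactSpace M] [MeasurableSpace M]
  [OpensMeasurableSpace M] {H : HC M}

theorem ePers (h : H.Ok) (c : H.COut) : H.EPers := D.pers_of h c.up c.dlo c.dup (dOut h)

end HC

end Crest.Agent.N207

end
end

-- ▼ part N207/E/StB

/-!
# Row 207, block E (helper65): backward static persistence
-/

set_option autoImplicit false
set_option linter.dupNamespace false
set_option linter.unusedSectionVars false
open Set MeasureTheory Filter Topology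
open scoped ContDiff

noncomputable section

namespace Crest.Agent.N207

namespace StB

variable {M : Type*} [TopologicalSpace M] [CompactSpace M] [MeasurableSpace M]
  [OpensMeasurableSpace M] {H : HC M}

/-- one of `J` annuli has small energy -/
theorem pigeon (h : H.Ok) {s : ℝ} (hs : s ∈ Ioo 0 H.T) (x : M) {E ε l : ℝ} {J : ℕ}
    (hE : ∫ y, H.N 0 s y ∂H.vol s ≤ E) (hJ : E < J * ε) (hl : 0 < l) :
    ∃ j < J, ∀ y, 2 * (4 ^ j * l) ≤ H.d s x y → H.d s x y ≤ 3 * (4 ^ j * l) →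
      H.en s y (4 ^ j * l) ≤ ε := by
  have iN := h.alg.integrable h.int hs (h.alg.s0_N hs 0)
  have n0 : 0 ≤ᵐ[H.vol s] H.N 0 s := Eventually.of_forall fun z => h.evo.N_nonneg 0 s hs z
  by_contra hc
  push Not at hc
  have key : ∀ n ≤ J, n * ε ≤ H.en s x (4 ^ n * l) := fun n => by
    induction n with
    | zero => intro _; simpa using HC.en_nonneg h.evo hs x l
    | succ n ih =>
      intro hn
      obtain ⟨y, y1, y2, y3⟩ := hc n hn
      have p : 0 < 4 ^ n * l := by positivity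
      have dj : Disjoint (H.B s x (4 ^ n * l)) (H.B s y (4 ^ n * l)) :=
        disjoint_left.2 fun w (h1 : _ < 4 ^ n * l) (h2 : _ < 4 ^ n * l) => by
          have a := h.dist.tri s hs x w y
          rw [h.dist.symm s hs w] at a
          linarith
      have e := setIntegral_union (μ := H.vol s) (f := H.N 0 s) dj (D.meas_B h.dist hs _ _)
        iN.integrableOn iN.integrableOn
      have sub : H.B s x (4 ^ n * l) ∪ H.B s y (4 ^ n * l) ⊆ H.B s x (4 ^ (n + 1) * l) := by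
        rintro w (h1 | h1)
        · refine HC.B_mono2 s x ?_ h1
          rw [pow_succ]; linarith
        · have a := h.dist.tri s hs x y w
          have b : H.d s y w < _ := h1
          show H.d s x w < _
          rw [pow_succ]; linarith
      have m := setIntegral_mono_set (iN.integrableOn (s := H.B s x (4 ^ (n + 1) * l)))
        (ae_restrict_of_ae n0) sub.eventuallyLE
      have := ih (by omega)
      unfold HC.en at *
      push_cast
      linarith
  have := (key J le_rfl).trans ((setIntegral_le_integral iN n0).trans hE)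
  linarith

/-- the shell `2h ≤ d s x · ≤ 3h` is regular on `[s,t]` -/
def Sh (H : HC M) (s t : ℝ) (x : M) (h C : ℝ) : Prop :=
  ∀ σ ∈ Icc s t, ∀ y, 2 * h ≤ H.d s x y → H.d s x y ≤ 3 * h →
    √(H.N 0 σ y) ≤ C / h ^ 2 ∧ √(H.Q 0 σ y) ≤ C / h ∧ √(H.Q 1 σ y) ≤ C / h ^ 2

/-- static cutoffs whose gradient lives in the regular shell -/
theorem cut_static (o : H.Ok) : ∃ G, 1 ≤ G ∧ ∀ {s t h C ρ : ℝ} {x : M}, H.St s t → 0 < h →
    0 ≤ C → Sh H s t x h C → 2 * C * (t - s) ≤ h → 2 * h ≤ ρ → ρ + h / 2 ≤ 3 * h →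
    ∃ w, H.S0 w ∧ (∀ y, 0 ≤ w y) ∧ (∀ y, w y ≤ 1) ∧ (∀ y ∈ H.B s x ρ, w y = 1) ∧
      (∀ y, w y ≠ 0 → y ∈ H.B s x (ρ + h / 2)) ∧ ∀ σ ∈ Icc s t, ∀ y,
        H.gam σ w w y ≤ (G / h) ^ 2 ∧
          (H.gam σ w w y ≠ 0 → 2 * h ≤ H.d s x y ∧ H.d s x y < 3 * h) := by
  have L0 := Sob.Lσ_pos
  refine ⟨1 + 192 * Sob.Lσ, by linarith, fun {s t h C ρ x} st hh hC sh hc h1 h2 => ?_⟩
  have ms : s ∈ Icc s t := left_mem_Icc.2 st.2.1.le
  obtain ⟨w, sw, w0, w1, w2, w3, w4⟩ :=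
    HC.exists_cut o.alg o.dist (st.mem ms) x ρ (s := h / 2) (by positivity)
  have loc : ∀ σ ∈ Icc s t, ∀ y, H.gam σ w w y ≠ 0 → 2 * h ≤ H.d s x y ∧ H.d s x y < 3 * h :=
    fun σ hσ y hy => by
      constructor
      · by_contra k
        refine hy (o.alg.at_max σ (st.mem hσ) sw (Eventually.of_forall fun z => ?_)).2
        rw [w2 y (show H.d s x y < ρ by linarith [not_le.1 k])]
        exact w1 z
      · by_contra k
        refine hy (o.alg.at_min (st.mem hσ) sw (Eventually.of_forall fun z => ?_)).2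
        rw [(w3 y (show ¬H.d s x y < ρ + h / 2 by linarith [not_lt.1 k])).1]
        exact w0 z
  refine ⟨w, sw, w0, w1, w2, fun y hy => ?_, fun σ hσ y => ⟨?_, loc σ hσ y⟩⟩
  · by_contra k; exact hy (w3 y k).1
  · by_cases k : H.gam σ w w y = 0
    · rw [k]; positivity
    obtain ⟨k1, k2⟩ := loc σ hσ y k
    refine (HC.gam_static o.alg o.evo st sw (fun τ hτ => (sh τ hτ y k1 k2.le).2.1) ms hσ).trans ?_
    have e1 : Real.exp (2 * (C / h) * |σ - s|) ≤ 3 := by
      refine le_trans (Real.exp_le_exp.2 ?_) Real.exp_one_lt_three.le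
      rw [abs_of_nonneg (sub_nonneg.2 hσ.1)]
      calc _ = 2 * C * (σ - s) / h := by ring
        _ ≤ 2 * C * (t - s) / h := by gcongr; exact hσ.2
        _ ≤ 1 := (div_le_one hh).2 hc
    calc _ ≤ 3 * (16 * Sob.Lσ / (h / 2) ^ 2) :=
          mul_le_mul e1 (w4 y) (o.alg.gam_nonneg s (st.mem ms) sw y) (by norm_num)
      _ = 192 * Sob.Lσ / h ^ 2 := by field_simp; ring
      _ ≤ _ := by rw [div_pow]; gcongr; nlinarith

/-- the inside of a regular shell has bounded diameter at the later time -/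
theorem diam_le (o : H.Ok) (c : H.COut) {t0 : ℝ} (h0 : 0 < t0) : ∃ D, 0 < D ∧
    ∀ {s t h C : ℝ} {x : M}, t0 ≤ s → H.St s t → 0 < h → h ≤ 1 → 0 ≤ C → Sh H s t x h C →
      2 * C * (t - s) ≤ h → ∀ y ∈ H.B s x (2 * h + h / 2), H.d t x y ≤ D * h := by
  obtain ⟨G, hG, hcut⟩ := cut_static o
  obtain ⟨κ, hκ, lo⟩ := c.lo t0 h0
  obtain ⟨Cv, hCv, up⟩ := c.up t0 h0
  obtain ⟨W, hW, vc⟩ := HC.vol_cmp o.int o.evo
  have G0 : 0 < G := by linarith
  refine ⟨162 * W * Cv * G ^ 3 / κ, by positivity,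
    fun {s t h C x} hs st hh h1 hC sh hc y hy => ?_⟩
  have ms := st.mem (left_mem_Icc.2 st.2.1.le)
  have mt := st.mem (right_mem_Icc.2 st.2.1.le)
  have := o.int.fin t mt
  obtain ⟨w, sw, -, -, w2, w3, w4⟩ :=
    hcut (ρ := 2 * h + h / 2) st hh hC sh hc (by linarith) (by linarith)
  obtain ⟨K, k1, k2, k3, k4⟩ := o.dist.conn s ms hy
  have p : 0 < h / G := by positivity
  have a := o.dist.pack mt (μ := H.vol t) (S := H.B s x (3 * h)) k1 k2 k3 p (by positivity)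
    (fun z _ => lo t ⟨by linarith [st.2.1], mt.2⟩ z (h / G) ⟨p, by
      rw [div_le_one G0]; linarith⟩) fun z hz v hv => by
      have l := o.dist.lip t mt (o.alg.s0_cmul (h / G) sw) (x := z) (y := v) (r := h / G)
        (fun u _ => by
          rw [o.alg.gam_cmul mt _ sw (o.alg.s0_cmul _ sw), o.alg.gam_cmul' mt _ sw sw]
          calc _ = (h / G) ^ 2 * H.gam t w w u := by ring
            _ ≤ (h / G) ^ 2 * (G / h) ^ 2 := by
                gcongr; exact (w4 t (right_mem_Icc.2 st.2.1.le) u).1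
            _ = 1 := by field_simp) hv
      have b : H.d t z v < h / G := hv
      rw [w2 z (k4 z hz)] at l
      refine HC.B_mono2 s x (by linarith) (w3 v fun k => ?_)
      rw [k] at l
      linarith [(abs_le.1 l).1]
  have b := (vc s ms t mt _).trans (mul_le_mul_of_nonneg_left
    (up s ⟨hs, ms.2⟩ x (3 * h) (by positivity)) hW.le)
  have e : H.d t x y * (κ * (h / G) ^ 4) ≤ 162 * W * Cv * G ^ 3 / κ * h * (κ * (h / G) ^ 4) :=
    a.trans ((mul_le_mul_of_nonneg_left b (by positivity)).trans_eq (by field_simp; ring))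
  exact le_of_mul_le_mul_right e (by positivity)

/-- the energy inside a regular shell, backward in time -/
theorem en_back (o : H.Ok) (c : H.COut) (d : H.DOut) {t0 : ℝ} (h0 : 0 < t0) : ∃ D, 0 < D ∧
    ∀ {s t h C r : ℝ} {x : M}, t0 ≤ s → H.St s t → 0 < h → h ≤ 1 → 0 ≤ C → Sh H s t x h C →
      2 * C * (t - s) ≤ h → D * h < r →
      H.en s x (2 * h) ≤ H.en t x r + D * (C ^ 2 * ((t - s) / h) + h) := by
  obtain ⟨G, hG, hcut⟩ := cut_static o
  obtain ⟨D1, hD1, hd⟩ := diam_le o c h0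
  obtain ⟨Cv, hCv, up⟩ := c.up t0 h0
  obtain ⟨W, hW, vc⟩ := HC.vol_cmp o.int o.evo
  obtain ⟨Cq, hCq, hq⟩ := HC.qLoc o c d h0
  obtain ⟨Cf, hCf, fl⟩ := d.flux
  have G0 : 0 < G := by linarith
  have x1 : 0 < 81 * Cf * G * W * Cv := by positivity
  refine ⟨D1 + 81 * Cf * G * W * Cv + 36 * Cq, by positivity,
    fun {s t h C r x} hs st hh h1 hC sh hc hr => ?_⟩
  have A := o.alg
  have I := o.int
  have ms := st.mem (left_mem_Icc.2 st.2.1.le)
  have mt := st.mem (right_mem_Icc.2 st.2.1.le)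
  obtain ⟨w, sw, w0, w1, w2, w3, w4⟩ := hcut (ρ := 2 * h) st hh hC sh hc le_rfl (by linarith)
  have g1 : H.en s x (2 * h) ≤ _ := HC.setInt_le_wt o ms (HC.isOpen_B o.dist ms x _) sw
    (A.s0_N ms 0) w0 (o.evo.N_nonneg 0 s ms) fun y hy => (w2 y hy).ge
  have g2 := D.wt_N_le A I ms sw w0
  have g3 := D.wt_Pf_le A I o.evo mt sw w0
  have g4 : _ ≤ H.en t x r := HC.wt_le_setInt o mt (HC.isOpen_B o.dist mt x _) sw
    (A.s0_N mt 0) w1 (o.evo.N_nonneg 0 t mt) fun y hy => by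
      have := hd hs st hh h1 hC sh hc y (w3 y hy)
      show H.d t x y < r
      nlinarith [mul_pos x1 hh, mul_pos hCq hh]
  have g5 := (HC.wt_le_setInt o ms (HC.isOpen_B o.dist ms x (3 * h)) sw (A.s0_Q ms 0) w1
    (o.evo.Q_nonneg 0 s ms) fun y hy => HC.B_mono2 s x (by linarith) (w3 y hy)).trans
    (hq s ⟨hs, ms.2⟩ x _ (by positivity))
  have g6 : |∫ y, w y * H.Pf t y ∂H.vol t - ∫ y, w y * H.Pf s y ∂H.vol s| ≤
      81 * Cf * G * W * Cv * C ^ 2 / h * |t - s| := by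
    refine (fl st (A.sm_static sw) (HasDt.static w) s t le_rfl st.2.1.le le_rfl).trans
      ((Real.le_norm_self _).trans
        (intervalIntegral.norm_integral_le_of_norm_le_const fun σ hσ => ?_))
    rw [uIoc_of_le st.2.1.le] at hσ
    have hσ' := Ioc_subset_Icc_self hσ
    have mσ := st.mem hσ'
    have := I.fin σ mσ
    rw [Real.norm_of_nonneg (integral_nonneg fun y => by positivity)]
    have z : ∀ y, H.gam σ w w y = 0 → |(0 : ℝ)| * |H.Pf σ y| +
        Cf * (√(H.gam σ w w y) * √(H.N 0 σ y) * √(H.Q 1 σ y)) = 0 := fun y hy => by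
      simp [hy]
    refine (E.int_le_vol (D.meas_B o.dist ms x (3 * h))
      (m := Cf * (G / h * (C / h ^ 2) * (C / h ^ 2))) (fun y => by positivity)
      (fun y _ => ?_) fun y hy => z y ?_).trans ?_
    · by_cases k : H.gam σ w w y = 0
      · rw [z y k]; positivity
      obtain ⟨k1, k2⟩ := (w4 σ hσ' y).2 k
      obtain ⟨b1, -, b3⟩ := sh σ hσ' y k1 k2.le
      have b2 : √(H.gam σ w w y) ≤ G / h :=
        Real.sqrt_le_iff.2 ⟨by positivity, (w4 σ hσ' y).1⟩
      rw [abs_zero, zero_mul, zero_add]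
      gcongr
    · by_contra k; exact hy ((w4 σ hσ' y).2 k).2
    · have b := (vc s ms σ mσ _).trans (mul_le_mul_of_nonneg_left
        (up s ⟨hs, ms.2⟩ x (3 * h) (by positivity)) hW.le)
      exact (mul_le_mul_of_nonneg_left b (by positivity)).trans_eq (by field_simp; ring)
  have p0 : 0 ≤ t - s := sub_nonneg.2 st.2.1.le
  rw [abs_of_nonneg p0] at g6
  have g7 := (abs_le.1 g6).1
  have e1 : 81 * Cf * G * W * Cv * C ^ 2 / h * (t - s) =
      81 * Cf * G * W * Cv * (C ^ 2 * ((t - s) / h)) := by ring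
  have p1 : 0 ≤ C ^ 2 * ((t - s) / h) := by positivity
  have p2 : Cq * (3 * h) ^ 2 ≤ 9 * Cq * h := by nlinarith [mul_pos hCq hh]
  nlinarith [mul_nonneg hD1.le p1, mul_nonneg hCq.le p1, mul_pos hD1 hh, mul_pos x1 hh]

end StB

namespace HC

variable {M : Type*} [TopologicalSpace M] [CompactSpace M] [MeasurableSpace M]
  [OpensMeasurableSpace M] {H : HC M}

/-- small energy at scale `r` persists backward for a time `c r` -/
theorem persB (o : H.Ok) (c : H.COut) (d : H.DOut) (hS : H.EStat) {t0 ε : ℝ} (h0 : 0 < t0)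
    (hε : 0 < ε) : ∃ c lam r0 : ℝ, 0 < c ∧ 0 < lam ∧ lam ≤ 1 ∧ 0 < r0 ∧ r0 ≤ 1 ∧ c ≤ t0 / 2 ∧
      ∀ t ∈ Ico t0 H.T, ∀ x, ∀ r, 0 < r → r ≤ r0 → ∀ s ≤ t, t - s ≤ c * r →
        H.en s x (lam * r) ≤ H.en t x r + ε := by
  obtain ⟨ε0, c1, r1, hε0, hc1, hr1, hst⟩ := hS (t0 / 2) (by linarith)
  obtain ⟨C0, hC0, h1⟩ := hst 0
  obtain ⟨C1, hC1, h2⟩ := hst 1
  obtain ⟨E, hE, hN, -⟩ := d.glob (t0 / 2) (by linarith)
  obtain ⟨D, hD, hb⟩ := StB.en_back o c d (half_pos h0)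
  obtain ⟨J, hJ⟩ := exists_nat_gt (E / ε0)
  rw [div_lt_iff₀ hε0] at hJ
  obtain ⟨C, hC, c0, c1'⟩ : ∃ C, 0 < C ∧ C0 ≤ C ^ 2 ∧ C1 ≤ C ^ 2 :=
    ⟨1 + C0 + C1, by positivity, by nlinarith, by nlinarith⟩
  obtain ⟨β, β0, β1, β2, β3, β4⟩ : ∃ β, 0 < β ∧ β ≤ c1 ∧ β * (2 * C) ≤ 1 ∧
      β * (2 * (D * C ^ 2)) ≤ ε ∧ β ≤ t0 / 2 :=
    ⟨min (min c1 (1 / (2 * C))) (min (ε / (2 * (D * C ^ 2))) (t0 / 2)), by positivity,
      (min_le_left _ _).trans (min_le_left _ _),
      (le_div_iff₀ (by positivity)).1 ((min_le_left _ _).trans (min_le_right _ _)),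
      (le_div_iff₀ (by positivity)).1 ((min_le_right _ _).trans (min_le_left _ _)),
      (min_le_right _ _).trans (min_le_right _ _)⟩
  obtain ⟨lam, l0, l1, l2⟩ : ∃ lam : ℝ, 0 < lam ∧ lam ≤ 1 ∧ (D + 1) * (4 ^ J * lam) = 1 := by
    refine ⟨1 / ((D + 1) * 4 ^ J), by positivity, ?_, by field_simp⟩
    rw [div_le_one (by positivity)]
    exact one_le_mul_of_one_le_of_one_le (by linarith) (one_le_pow₀ (by norm_num))
  have cl : β * lam ≤ t0 / 2 := (mul_le_of_le_one_right β0.le l1).trans β4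
  refine ⟨β * lam, lam, min 1 (min r1 (ε / (2 * D))), by positivity, l0, l1, by positivity,
    min_le_left _ _, cl, fun t ht x r hr hr0 s hs hts => ?_⟩
  have r1' : r ≤ 1 := hr0.trans (min_le_left _ _)
  have r2 : r ≤ r1 := hr0.trans ((min_le_right _ _).trans (min_le_left _ _))
  have r3 : r * (2 * D) ≤ ε :=
    (le_div_iff₀ (by positivity)).1 (hr0.trans ((min_le_right _ _).trans (min_le_right _ _)))
  have mt : t ∈ Ioo 0 H.T := ⟨h0.trans_le ht.1, ht.2⟩
  rcases hs.eq_or_lt with rfl | hs'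
  · have := en_mono_set o mt (B_mono2 s x (mul_le_of_le_one_left hr.le l1))
    linarith
  have s0 : t0 / 2 ≤ s := by
    have : β * lam * r ≤ β * lam := mul_le_of_le_one_right (by positivity) r1'
    linarith [ht.1]
  have st : H.St s t := ⟨by linarith, hs', ht.2⟩
  have ms : s ∈ Ico (t0 / 2) H.T := ⟨s0, hs'.trans ht.2⟩
  have ms' := st.mem (left_mem_Icc.2 hs)
  obtain ⟨j, hj, hp⟩ := StB.pigeon o ms' x (hN s ms) hJ (mul_pos l0 hr)
  obtain ⟨h, eh⟩ : ∃ h, h = 4 ^ j * (lam * r) := ⟨_, rfl⟩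
  rw [← eh] at hp
  have q1 : lam * r ≤ h := by
    rw [eh]; exact le_mul_of_one_le_left (by positivity) (one_le_pow₀ (by norm_num))
  have hh : 0 < h := lt_of_lt_of_le (by positivity) q1
  have q2 : (D + 1) * h ≤ r := by
    calc _ ≤ (D + 1) * (4 ^ J * (lam * r)) := by
          rw [eh]; gcongr; norm_num
      _ = (D + 1) * (4 ^ J * lam) * r := by ring
      _ = r := by rw [l2, one_mul]
  have q3 : h ≤ r := by nlinarith [mul_pos hD hh]
  have q4 : t - s ≤ β * h := hts.trans (by rw [mul_assoc]; gcongr)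
  have sh : StB.Sh H s t x h C := fun σ hσ y y1 y2 => by
    have hy : y ∈ H.B s y (h / 2) := by
      show H.d s y y < _
      rw [o.dist.self s ms']; positivity
    have mσ : σ ∈ Ico s H.T := ⟨hσ.1, hσ.2.trans_lt ht.2⟩
    have tσ : σ - s ≤ c1 * h := by nlinarith [hσ.2]
    obtain ⟨a1, a2⟩ := h1 s ms y h hh (q3.trans r2) (hp y y1 y2) y hy σ mσ tσ
    obtain ⟨-, a3⟩ := h2 s ms y h hh (q3.trans r2) (hp y y1 y2) y hy σ mσ tσ
    refine ⟨Real.sqrt_le_iff.2 ⟨by positivity, a1.trans ?_⟩,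
      Real.sqrt_le_iff.2 ⟨by positivity, a2.trans ?_⟩,
      Real.sqrt_le_iff.2 ⟨by positivity, a3.trans ?_⟩⟩
    · rw [div_pow, ← pow_mul]; gcongr
    · rw [div_pow]; gcongr
    · rw [div_pow, ← pow_mul]; gcongr
  have k := hb (r := r) s0 st hh (q3.trans r1') hC.le sh
    (by nlinarith [mul_le_mul_of_nonneg_left q4 hC.le]) (by linarith)
  have k2 := en_mono_set o ms' (B_mono2 s x (show lam * r ≤ 2 * h by linarith))
  have k3 : (t - s) / h ≤ β := (div_le_iff₀ hh).2 q4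
  have k4 := mul_le_mul_of_nonneg_left k3 (show 0 ≤ D * C ^ 2 by positivity)
  have k5 := mul_le_mul_of_nonneg_left q3 hD.le
  nlinarith

/-- **backward static persistence** -/
theorem eStatB (o : H.Ok) (c : H.COut) (d : H.DOut) (hR : H.EReg) (hS : H.EStat) : H.EStatB := by
  intro t0 h0
  obtain ⟨ε0, c1, r1, hε0, hc1, hr1, -, hk⟩ := hR (t0 / 2) (by linarith)
  obtain ⟨β, lam, r0, β0, l0, l1, hr0, r01, β1, hp⟩ := persB o c d hS h0 (half_pos hε0)
  refine ⟨ε0 / 2, β / 2, min r0 r1, by positivity, by positivity, by positivity, ?_, fun k => ?_⟩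
  · have : min r0 r1 ≤ 1 := (min_le_left _ _).trans r01
    nlinarith
  obtain ⟨C, hC, hb⟩ := hk k
  refine ⟨C * (ε0 + 1) / (lam / 2) ^ (4 + 2 * k) + C / (lam / 2) ^ (2 + 2 * k), by positivity,
    fun t ht x r hr hrr hen y hy s hs hts => ?_⟩
  have r2 : r ≤ r0 := hrr.trans (min_le_left _ _)
  have r3 : r ≤ r1 := hrr.trans (min_le_right _ _)
  have mt : t ∈ Ioo 0 H.T := ⟨h0.trans_le ht.1, ht.2⟩
  have s0 : t0 / 2 ≤ s := by nlinarith [ht.1]
  have ms : s ∈ Ioo 0 H.T := ⟨by linarith, hs.trans_lt ht.2⟩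
  have e1 := hp t ht y (r / 2) (by positivity) (by linarith) s hs (by linarith)
  have e2 := en_mono_set o mt (E.ball_sub o.dist mt hy)
  have p : 0 < lam * (r / 2) := by positivity
  have p1 : lam * (r / 2) ≤ r := by nlinarith
  have e3 : H.en s y (lam * (r / 2)) ≤ ε0 := by linarith
  obtain ⟨a1, a2⟩ := (hb s ⟨s0, ms.2⟩ y _ p (p1.trans r3) e3 y (by
    show H.d s y y < _
    rw [o.dist.self s ms]; positivity)).1 s ms (by rw [sub_self, abs_zero]; positivity)
  have e : ∀ n : ℕ, (lam * (r / 2)) ^ n = (lam / 2) ^ n * r ^ n := fun n => by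
    rw [← mul_pow]; congr 1; ring
  rw [e, ← div_div] at a1 a2
  refine ⟨a1.trans (div_le_div_of_nonneg_right ?_ (by positivity)),
    a2.trans (div_le_div_of_nonneg_right ?_ (by positivity))⟩
  · refine le_trans ?_ (le_add_of_nonneg_right (by positivity))
    gcongr
    linarith
  · exact le_add_of_nonneg_left (by positivity)

end HC

end Crest.Agent.N207

end
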